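import Mathlib

/-!
# P249: finitely many points of `L_p(μ)` are almost isometric to points of some `ℓ_p^m`

`simple_to_pilp`: finitely many simple functions in `L_p(μ)` are isometric to points of `ℓ_p^m`
(common refinement of the level sets).
`lp_finite_approx`: finitely many points of `L_p(μ)` are `(1 ± η)`-approximated by points of
some `ℓ_p^m` (density of simple functions).
-/

open MeasureTheory

namespace Vale.Agent.Lib.P249.H21Lp

variable {α : Type*} [MeasurableSpace α]

/-- The joint simple function of finitely many simple functions. -/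
noncomputable def joint {n : ℕ} (G : Fin n → SimpleFunc α ℝ) : SimpleFunc α (Fin n → ℝ) where
  toFun a i := G i a
  measurableSet_fiber' c := by
    have h : (fun a i => G i a) ⁻¹' {c} = ⋂ i, (G i) ⁻¹' {c i} := by
      ext a
      simp only [Set.mem_preimage, Set.mem_singleton_iff, Set.mem_iInter]
      exact funext_iff
    rw [h]
    exact MeasurableSet.iInter fun i => (G i).measurableSet_fiber (c i)
  finite_range' := by
    refine (Set.Finite.pi (fun i => (G i).finite_range)).subset ?_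
    rintro _ ⟨a, rfl⟩
    intro i _
    exact Set.mem_range_self a

theorem joint_apply {n : ℕ} (G : Fin n → SimpleFunc α ℝ) (a : α) (i : Fin n) :
    joint G a i = G i a := rfl

theorem simple_to_pilp (μ : Measure α) (p : ENNReal) [Fact (1 ≤ p)] (hp : p ≠ ⊤) (n : ℕ)
    (g : Fin n → Lp.simpleFunc ℝ p μ) :
    ∃ (m : ℕ) (x : Fin n → PiLp p (fun _ : Fin m => ℝ)),
      ∀ i j, dist (x i) (x j) = dist (g i : Lp ℝ p μ) (g j : Lp ℝ p μ) := by
  classical
  have hp1 : (1 : ENNReal) ≤ p := Fact.out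
  have hp0 : p ≠ 0 := (lt_of_lt_of_le zero_lt_one hp1).ne'
  have hq1 : 1 ≤ p.toReal := by
    have := ENNReal.toReal_mono hp hp1
    simpa using this
  have hq0 : 0 < p.toReal := by linarith
  let G : Fin n → SimpleFunc α ℝ := fun i => Lp.simpleFunc.toSimpleFunc (g i)
  let J : SimpleFunc α (Fin n → ℝ) := joint G
  let w : (Fin n → ℝ) → ℝ := fun c => if (∃ i j, c i ≠ c j) then (μ (J ⁻¹' {c})).toReal else 0
  have hw0 : ∀ c, 0 ≤ w c := by
    intro c
    simp only [w]
    split_ifs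
    · exact ENNReal.toReal_nonneg
    · exact le_rfl
  have key : ∀ i j, dist (g i : Lp ℝ p μ) (g j : Lp ℝ p μ) =
      (∑ c ∈ J.range, w c * |c i - c j| ^ p.toReal) ^ (1 / p.toReal) := by
    intro i j
    rw [Lp.dist_def]
    have hae : (⇑(g i : Lp ℝ p μ) - ⇑(g j : Lp ℝ p μ)) =ᵐ[μ] fun a => G i a - G j a := by
      filter_upwards [Lp.simpleFunc.toSimpleFunc_eq_toFun (g i),
        Lp.simpleFunc.toSimpleFunc_eq_toFun (g j)] with a ha hb
      simp only [Pi.sub_apply, G]
      rw [ha, hb]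
    rw [eLpNorm_congr_ae hae, eLpNorm_eq_lintegral_rpow_enorm_toReal hp0 hp]
    have h1 : (fun a => ‖G i a - G j a‖ₑ ^ p.toReal) =
        (J.map (fun c => ‖c i - c j‖ₑ ^ p.toReal) : α → ENNReal) := by
      ext a
      rfl
    rw [h1, SimpleFunc.lintegral_eq_lintegral, SimpleFunc.map_lintegral]
    have h2 : ∀ c ∈ J.range, ‖c i - c j‖ₑ ^ p.toReal * μ (J ⁻¹' {c}) =
        ENNReal.ofReal (w c * |c i - c j| ^ p.toReal) := by
      intro c _
      by_cases hij : c i = c j
      · simp [hij, hq0, hq0.ne']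
      · have hfin : μ (J ⁻¹' {c}) < ⊤ := by
          have hmem : MemLp (⇑(G i - G j)) p μ :=
            (Lp.simpleFunc.memLp (g i)).sub (Lp.simpleFunc.memLp (g j))
          have hlt := SimpleFunc.measure_preimage_lt_top_of_memLp hp0 hp (G i - G j) hmem
            (c i - c j) (sub_ne_zero.mpr hij)
          refine lt_of_le_of_lt (measure_mono ?_) hlt
          intro a ha
          simp only [Set.mem_preimage, Set.mem_singleton_iff] at ha ⊢
          rw [SimpleFunc.sub_apply, ← ha]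
          rfl
        have hw : w c = (μ (J ⁻¹' {c})).toReal := if_pos ⟨i, j, hij⟩
        rw [hw, ENNReal.ofReal_mul ENNReal.toReal_nonneg, ENNReal.ofReal_toReal hfin.ne, mul_comm]
        congr 1
        rw [← Real.norm_eq_abs, ← ofReal_norm,
          ENNReal.ofReal_rpow_of_nonneg (norm_nonneg _) hq0.le]
    rw [Finset.sum_congr rfl h2, ← ENNReal.ofReal_sum_of_nonneg
      (fun c _ => mul_nonneg (hw0 c) (Real.rpow_nonneg (abs_nonneg _) _)),
      ← ENNReal.toReal_rpow, ENNReal.toReal_ofReal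
      (Finset.sum_nonneg fun c _ => mul_nonneg (hw0 c) (Real.rpow_nonneg (abs_nonneg _) _))]
  let e : J.range ≃ Fin J.range.card := J.range.equivFin
  refine ⟨J.range.card, fun i => WithLp.toLp p
    (fun l => (w (e.symm l).1) ^ (1 / p.toReal) * (e.symm l).1 i), fun i j => ?_⟩
  rw [key i j, PiLp.dist_eq_sum hq0]
  congr 1
  rw [← Finset.sum_coe_sort J.range (fun c => w c * |c i - c j| ^ p.toReal),
    ← Equiv.sum_comp e.symm]
  refine Finset.sum_congr rfl fun l _ => ?_
  rw [Real.dist_eq, ← mul_sub, abs_mul, Real.mul_rpow (abs_nonneg _) (abs_nonneg _),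
    abs_of_nonneg (Real.rpow_nonneg (hw0 _) _), ← Real.rpow_mul (hw0 _), one_div,
    inv_mul_cancel₀ hq0.ne', Real.rpow_one]

theorem exists_pos_lb (n : ℕ) (D : Fin n → Fin n → ℝ) :
    ∃ r : ℝ, 0 < r ∧ ∀ i j, 0 < D i j → r ≤ D i j := by
  classical
  let T := (Finset.univ : Finset (Fin n × Fin n)).filter (fun q => 0 < D q.1 q.2)
  by_cases hT : T.Nonempty
  · refine ⟨T.inf' hT (fun q => D q.1 q.2), ?_, ?_⟩
    · obtain ⟨q, hq, hqe⟩ := Finset.exists_mem_eq_inf' hT (fun q => D q.1 q.2)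
      rw [hqe]
      exact (Finset.mem_filter.mp hq).2
    · intro i j hij
      exact Finset.inf'_le (fun q : Fin n × Fin n => D q.1 q.2)
        (Finset.mem_filter.mpr ⟨Finset.mem_univ (i, j), hij⟩)
  · exact ⟨1, one_pos, fun i j hij =>
      absurd ⟨(i, j), Finset.mem_filter.mpr ⟨Finset.mem_univ _, hij⟩⟩ hT⟩

theorem lp_finite_approx (μ : Measure α) (p : ENNReal) [Fact (1 ≤ p)] (hp : p ≠ ⊤) (n : ℕ)
    (f : Fin n → Lp ℝ p μ) (η : ℝ) (hη : 0 < η) :
    ∃ (m : ℕ) (x : Fin n → PiLp p (fun _ : Fin m => ℝ)),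
      ∀ i j, (1 - η) * dist (f i) (f j) ≤ dist (x i) (x j) ∧
        dist (x i) (x j) ≤ (1 + η) * dist (f i) (f j) := by
  classical
  obtain ⟨r, hr0, hr⟩ : ∃ r : ℝ, 0 < r ∧ ∀ i j, f i ≠ f j → r ≤ dist (f i) (f j) := by
    obtain ⟨D, hD⟩ : ∃ D : Fin n → Fin n → ℝ, ∀ i j, D i j = dist (f i) (f j) :=
      ⟨fun i j => dist (f i) (f j), fun _ _ => rfl⟩
    obtain ⟨r, hr0, hr⟩ := exists_pos_lb n D
    refine ⟨r, hr0, fun i j hij => ?_⟩
    rw [← hD i j]
    apply hr
    rw [hD i j]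
    exact dist_pos.mpr hij
  have hδ : 0 < η * r / 2 := by positivity
  have hdense : ∀ F : Lp ℝ p μ, ∃ s : Lp.simpleFunc ℝ p μ,
      dist F (s : Lp ℝ p μ) < η * r / 2 := by
    intro F
    obtain ⟨s, hs⟩ := (Lp.simpleFunc.denseRange (E := ℝ) (μ := μ) hp).exists_dist_lt F hδ
    exact ⟨s, hs⟩
  choose s hs using hdense
  obtain ⟨m, x, hx⟩ := simple_to_pilp μ p hp n (fun i => s (f i))
  refine ⟨m, x, fun i j => ?_⟩
  rw [hx i j]
  by_cases hij : f i = f j
  · rw [hij]
    simp
  · have h1 := hs (f i)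
    have h2 := hs (f j)
    have hr' := hr i j hij
    have hmul : η * r ≤ η * dist (f i) (f j) := mul_le_mul_of_nonneg_left hr' hη.le
    have t1 : dist (s (f i) : Lp ℝ p μ) (s (f j) : Lp ℝ p μ) ≤
        dist (s (f i) : Lp ℝ p μ) (f i) + dist (f i) (f j) +
          dist (f j) (s (f j) : Lp ℝ p μ) := dist_triangle4 _ _ _ _
    have t2 : dist (f i) (f j) ≤ dist (f i) (s (f i) : Lp ℝ p μ) +
        dist (s (f i) : Lp ℝ p μ) (s (f j) : Lp ℝ p μ) +
          dist (s (f j) : Lp ℝ p μ) (f j) := dist_triangle4 _ _ _ _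
    rw [dist_comm (s (f i) : Lp ℝ p μ) (f i)] at t1
    rw [dist_comm (s (f j) : Lp ℝ p μ) (f j)] at t2
    constructor <;> linarith

end Vale.Agent.Lib.P249.H21Lp
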