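import Vale.Agent.Lib.P249.helper53.Cube

/-!
# P249: Talagrand's induction on a block of bits with quadratic cost (helper21)

`pl_block`: if `g a ≤ f b + α * (hammingDist a b)^2` for all `a b : Fin m → Bool` and
`4 * m * α ≤ 1`, then `(∑ a, exp (g a)) * (∑ b, exp (- f b)) ≤ 4 ^ m * exp (2 * m * α ^ 2)`.
The proof is an induction over the bits with a shift `s` added to the Hamming distance and the
quadratic invariant `W j s = α (1 + 2α)^j (s + j α)^2 + j α^2`.
-/

namespace Vale.Agent.Lib.P249.H21Grid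

open Finset

/-- The invariant exponent. -/
noncomputable def W (α : ℝ) (j s : ℕ) : ℝ :=
  α * (1 + 2 * α) ^ j * ((s : ℝ) + j * α) ^ 2 + j * α ^ 2

theorem cosh_bound (L : ℝ) : 2 + Real.exp L + Real.exp (-L) ≤ 4 * Real.exp (L ^ 2 / 4) := by
  have h1 : Real.cosh (L / 2) ≤ Real.exp ((L / 2) ^ 2 / 2) := Real.cosh_le_exp_half_sq _
  have h2 : 2 + Real.exp L + Real.exp (-L) = 4 * Real.cosh (L / 2) ^ 2 := by
    rw [Real.cosh_eq]
    have e1 : Real.exp L = Real.exp (L / 2) * Real.exp (L / 2) := by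
      rw [← Real.exp_add]; ring_nf
    have e2 : Real.exp (-L) = Real.exp (-(L / 2)) * Real.exp (-(L / 2)) := by
      rw [← Real.exp_add]; ring_nf
    have e3 : Real.exp (L / 2) * Real.exp (-(L / 2)) = 1 := by
      rw [← Real.exp_add]; simp
    rw [e1, e2]
    nlinarith [e3]
  have h3 : Real.cosh (L / 2) ^ 2 ≤ Real.exp (L ^ 2 / 4) := by
    have hc0 : 0 ≤ Real.cosh (L / 2) := (Real.cosh_pos _).le
    calc Real.cosh (L / 2) ^ 2 ≤ Real.exp ((L / 2) ^ 2 / 2) ^ 2 := by gcongr
      _ = Real.exp (L ^ 2 / 4) := by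
        rw [← Real.exp_nat_mul]; congr 1; push_cast; ring
  linarith

theorem pow_le_two (m : ℕ) (α : ℝ) (hα0 : 0 ≤ α) (hα : 4 * m * α ≤ 1) (j : ℕ) (hj : j ≤ m) :
    (1 + 2 * α) ^ j ≤ 2 := by
  have h1 : 1 + 2 * α ≤ Real.exp (2 * α) := by
    have := Real.add_one_le_exp (2 * α)
    linarith
  have h2 : (1 + 2 * α) ^ j ≤ Real.exp (2 * α) ^ j :=
    pow_le_pow_left₀ (by linarith) h1 j
  have h3 : Real.exp (2 * α) ^ j = Real.exp (j * (2 * α)) := (Real.exp_nat_mul _ _).symm
  have hjm : (j : ℝ) ≤ m := by exact_mod_cast hj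
  have h4 : (j : ℝ) * (2 * α) ≤ 1 / 2 := by nlinarith
  have h5 : Real.exp (j * (2 * α)) ≤ Real.exp (1 / 2) := Real.exp_le_exp.mpr h4
  have h6 : Real.exp (1 / 2) ≤ 2 := by
    have e : Real.exp (1 / 2) * Real.exp (1 / 2) = Real.exp 1 := by
      rw [← Real.exp_add]; norm_num
    have := Real.exp_one_lt_d9
    have hpos : 0 < Real.exp (1 / 2) := Real.exp_pos _
    nlinarith
  calc (1 + 2 * α) ^ j ≤ Real.exp (2 * α) ^ j := h2
    _ = Real.exp (j * (2 * α)) := h3
    _ ≤ Real.exp (1 / 2) := h5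
    _ ≤ 2 := h6

/-- The step inequality of the invariant. -/
theorem W_step (m : ℕ) (α : ℝ) (hα0 : 0 ≤ α) (hα : 4 * m * α ≤ 1) (j s : ℕ) (hj : j ≤ m) :
    W α j s + (W α j (s + 1) - W α j s) ^ 2 / 4 ≤ W α (j + 1) s := by
  have hβ2 : (1 + 2 * α) ^ j ≤ 2 := pow_le_two m α hα0 hα j hj
  have hβ1 : 0 ≤ (1 + 2 * α) ^ j := by positivity
  unfold W
  push_cast
  set b := α * (1 + 2 * α) ^ j with hb
  set t := (s : ℝ) + j * α with ht
  have hb0 : 0 ≤ b := by positivity
  have hb2 : b ≤ 2 * α := by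
    rw [hb]; nlinarith
  have ht0 : 0 ≤ t := by positivity
  have e1 : α * (1 + 2 * α) ^ (j + 1) = b * (1 + 2 * α) := by rw [hb]; ring
  have e2 : (s : ℝ) + 1 + j * α = t + 1 := by rw [ht]; ring
  have e3 : (s : ℝ) + (j + 1) * α = t + α := by rw [ht]; ring
  rw [e1, e2, e3]
  have k1 : 0 ≤ b * (2 * α - b) * t ^ 2 := by
    apply mul_nonneg (mul_nonneg hb0 (by linarith)) (sq_nonneg t)
  have k2 : 0 ≤ b * (2 * α * (1 + 2 * α) - b) * t := by
    apply mul_nonneg (mul_nonneg hb0 (by nlinarith)) ht0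
  have k3 : 0 ≤ b * (1 + 2 * α) * α ^ 2 := by positivity
  have k4 : 0 ≤ α ^ 2 - b ^ 2 / 4 := by nlinarith
  nlinarith [k1, k2, k3, k4]

theorem W_mono (α : ℝ) (hα0 : 0 ≤ α) (j s : ℕ) : W α j s ≤ W α j (s + 1) := by
  unfold W
  push_cast
  have h1 : 0 ≤ α * (1 + 2 * α) ^ j := by positivity
  have h2 : 0 ≤ (s : ℝ) + j * α := by positivity
  nlinarith [mul_nonneg h1 h2]

theorem pl_block_shift (m : ℕ) (α : ℝ) (hα0 : 0 ≤ α) (hα : 4 * m * α ≤ 1) :
    ∀ (j : ℕ), j ≤ m → ∀ (s : ℕ) (f g : (Fin j → Bool) → ℝ),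
      (∀ a b, g a ≤ f b + α * ((hammingDist a b : ℝ) + s) ^ 2) →
      (∑ a, Real.exp (g a)) * (∑ b, Real.exp (-f b)) ≤ 4 ^ j * Real.exp (W α j s) := by
  intro j
  induction j with
  | zero =>
    intro _ s f g h
    have hu : (Finset.univ : Finset (Fin 0 → Bool)) = {fun i => i.elim0} := by
      ext x
      simp only [Finset.mem_univ, Finset.mem_singleton, true_iff]
      exact Subsingleton.elim _ _
    rw [hu, Finset.sum_singleton, Finset.sum_singleton]
    have h0 := h (fun i => i.elim0) (fun i => i.elim0)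
    simp only [hammingDist_self, Nat.cast_zero, zero_add] at h0
    rw [← Real.exp_add]
    simp only [pow_zero, one_mul]
    apply Real.exp_le_exp.mpr
    unfold W
    simp only [pow_zero, mul_one, Nat.cast_zero, zero_mul, add_zero]
    linarith
  | succ j ih =>
    intro hj s f g h
    have hj' : j ≤ m := by omega
    have split : ∀ F : (Fin (j + 1) → Bool) → ℝ,
        ∑ a, F a = ∑ a : Fin j → Bool, F (Fin.cons false a) +
          ∑ a : Fin j → Bool, F (Fin.cons true a) := by
      intro F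
      rw [← (Fin.consEquiv (fun _ : Fin (j + 1) => Bool)).sum_comp F, Fintype.sum_prod_type]
      simp only [Fin.consEquiv, Equiv.coe_fn_mk, Fintype.sum_bool]
      exact add_comm _ _
    rw [split, split]
    set A0 := ∑ a : Fin j → Bool, Real.exp (g (Fin.cons false a)) with hA0
    set A1 := ∑ a : Fin j → Bool, Real.exp (g (Fin.cons true a)) with hA1
    set B0 := ∑ b : Fin j → Bool, Real.exp (-f (Fin.cons false b)) with hB0
    set B1 := ∑ b : Fin j → Bool, Real.exp (-f (Fin.cons true b)) with hB1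
    set N := (4 : ℝ) ^ j * Real.exp (W α j s) with hN
    set L := W α j (s + 1) - W α j s with hL
    have hL0 : 0 ≤ L := by
      have := W_mono α hα0 j s
      linarith
    have hA0pos : 0 ≤ A0 := Finset.sum_nonneg (fun _ _ => (Real.exp_pos _).le)
    have hA1pos : 0 ≤ A1 := Finset.sum_nonneg (fun _ _ => (Real.exp_pos _).le)
    have hB0pos : 0 < B0 := Finset.sum_pos (fun _ _ => Real.exp_pos _) Finset.univ_nonempty
    have hB1pos : 0 < B1 := Finset.sum_pos (fun _ _ => Real.exp_pos _) Finset.univ_nonempty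
    have hNpos : 0 ≤ N := by positivity
    have same : ∀ x : Bool, (∑ a : Fin j → Bool, Real.exp (g (Fin.cons x a))) *
        (∑ b : Fin j → Bool, Real.exp (-f (Fin.cons x b))) ≤ N := by
      intro x
      apply ih hj' s (fun b => f (Fin.cons x b)) (fun a => g (Fin.cons x a))
      intro a b
      have := h (Fin.cons x a) (Fin.cons x b)
      rw [Vale.Agent.Lib.P249.H53.hammingDist_cons] at this
      simpa using this
    have diff : ∀ x y : Bool, x ≠ y → (∑ a : Fin j → Bool, Real.exp (g (Fin.cons x a))) *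
        (∑ b : Fin j → Bool, Real.exp (-f (Fin.cons y b))) ≤ Real.exp L * N := by
      intro x y hxy
      have key := ih hj' (s + 1) (fun b => f (Fin.cons y b)) (fun a => g (Fin.cons x a)) (by
        intro a b
        have := h (Fin.cons x a) (Fin.cons y b)
        rw [Vale.Agent.Lib.P249.H53.hammingDist_cons] at this
        simp only [hxy, ne_eq, not_false_eq_true, if_true] at this
        have e : (1 : ℝ) + (hammingDist a b : ℝ) + (s : ℝ)
            = (hammingDist a b : ℝ) + ((s + 1 : ℕ) : ℝ) := by push_cast; ring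
        rw [e] at this
        exact this)
      have e : Real.exp L * N = 4 ^ j * Real.exp (W α j (s + 1)) := by
        rw [hN, hL]
        have : Real.exp (W α j (s + 1)) = Real.exp (W α j (s + 1) - W α j s) *
            Real.exp (W α j s) := by
          rw [← Real.exp_add]; congr 1; ring
        rw [this]; ring
      rw [e]
      exact key
    have h00 := same false
    have h11 := same true
    have h01 := diff false true (by decide)
    have h10 := diff true false (by decide)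
    have tp := Vale.Agent.Lib.P249.H53.two_point L A0 A1 B0 B1 N hL0 hA0pos hA1pos hB0pos hB1pos
      hNpos h00 h11 h01 h10
    have hc := cosh_bound L
    have hstep := W_step m α hα0 hα j s hj'
    calc (A0 + A1) * (B0 + B1) ≤ N * (2 + Real.exp L + Real.exp (-L)) := tp
      _ ≤ N * (4 * Real.exp (L ^ 2 / 4)) := by gcongr
      _ = 4 ^ (j + 1) * Real.exp (W α j s + L ^ 2 / 4) := by
        rw [hN, Real.exp_add]; ring
      _ ≤ 4 ^ (j + 1) * Real.exp (W α (j + 1) s) := by
        gcongr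

/-- **Block lemma.**  Quadratic cost in the Hamming distance of a block of `m` bits. -/
theorem pl_block (m : ℕ) (α : ℝ) (hα0 : 0 ≤ α) (hα : 4 * m * α ≤ 1)
    (f g : (Fin m → Bool) → ℝ)
    (h : ∀ a b, g a ≤ f b + α * (hammingDist a b : ℝ) ^ 2) :
    (∑ a, Real.exp (g a)) * (∑ b, Real.exp (-f b)) ≤ 4 ^ m * Real.exp (2 * m * α ^ 2) := by
  have key := pl_block_shift m α hα0 hα m le_rfl 0 f g (by
    intro a b
    simpa using h a b)
  refine le_trans key ?_
  have hβ2 : (1 + 2 * α) ^ m ≤ 2 := pow_le_two m α hα0 hα m le_rfl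
  have hβ1 : 0 ≤ (1 + 2 * α) ^ m := by positivity
  have hW : W α m 0 ≤ 2 * m * α ^ 2 := by
    unfold W
    simp only [Nat.cast_zero, zero_add]
    have hm0 : (0 : ℝ) ≤ m := Nat.cast_nonneg m
    have h1 : α * (1 + 2 * α) ^ m ≤ 2 * α := by nlinarith
    have h2 : 0 ≤ ((m : ℝ) * α) ^ 2 := sq_nonneg _
    have h3 : (m : ℝ) * α ≤ 1 / 4 := by linarith
    have h4 : α * (1 + 2 * α) ^ m * ((m : ℝ) * α) ^ 2 ≤ 2 * α * ((m : ℝ) * α) ^ 2 :=
      mul_le_mul_of_nonneg_right h1 h2
    have h5 : 2 * α * ((m : ℝ) * α) ^ 2 = (2 * ((m : ℝ) * α)) * (m * α ^ 2) := by ring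
    have h6 : (2 * ((m : ℝ) * α)) * (m * α ^ 2) ≤ 1 * (m * α ^ 2) := by
      apply mul_le_mul_of_nonneg_right (by linarith) (by positivity)
    linarith
  gcongr

end Vale.Agent.Lib.P249.H21Grid
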