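import Vale.Agent.Lib.P249.helper21.Sensitivity
import Vale.Agent.Lib.P249.helper75.Assemble
import Vale.Agent.Lib.P249.helper52.Sampling

/-!
P249: the pair-sensitivity bound for `ℓ_p` coordinates, in the shape consumed by the assembly,
and the final near-linear dimension bound.
-/

namespace Vale.Agent.Lib.P249.H21

open Finset

/-- The quasi-triangle inequality for `q`-th powers on the line. -/
theorem abs_rpow_quasi (q : ℝ) (hq : 1 ≤ q) (a b c : ℝ) :
    |a - c| ^ q ≤ 2 ^ (q - 1) * (|a - b| ^ q + |b - c| ^ q) := by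
  have h1 : |a - c| ≤ |a - b| + |b - c| := abs_sub_le a b c
  have h2 : |a - c| ^ q ≤ (|a - b| + |b - c|) ^ q :=
    Real.rpow_le_rpow (abs_nonneg _) h1 (by linarith)
  have h3 := NNReal.rpow_add_le_mul_rpow_add_rpow ⟨|a - b|, abs_nonneg _⟩
    ⟨|b - c|, abs_nonneg _⟩ hq
  have h4 : (|a - b| + |b - c|) ^ q ≤ 2 ^ (q - 1) * (|a - b| ^ q + |b - c| ^ q) := by
    have := NNReal.coe_le_coe.mpr h3
    push_cast at this
    exact this
  linarith

/-- The `ℓ_q` coordinates of `n` points satisfy the hypotheses of the sensitivity bound. -/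
theorem hyp_lp (q : ℝ) (hq : 1 ≤ q) (n m : ℕ) (x : Fin n → Fin m → ℝ) :
    Hyp q (fun a b => (∑ k, |x a k - x b k| ^ q) ^ (1 / q))
      (fun k a b => |x a k - x b k| ^ q) where
  hq := hq
  dd_nonneg := fun a b =>
    Real.rpow_nonneg (Finset.sum_nonneg (fun k _ => Real.rpow_nonneg (abs_nonneg _) q)) _
  dd_self := by
    intro a
    have hq0 : q ≠ 0 := by linarith
    have hq1 : q⁻¹ ≠ 0 := inv_ne_zero hq0
    simp [Real.zero_rpow hq0, Real.zero_rpow hq1]
  dd_symm := by
    intro a b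
    have : ∀ k, |x a k - x b k| = |x b k - x a k| := fun k => abs_sub_comm _ _
    simp only [this]
  dd_tri := by
    intro a b c
    have h := Real.Lp_add_le univ (fun k => x a k - x b k) (fun k => x b k - x c k) hq
    have e : ∀ k, x a k - x b k + (x b k - x c k) = x a k - x c k := fun k => by ring
    simp only [e] at h
    exact h
  w_nonneg := fun k a b => Real.rpow_nonneg (abs_nonneg _) q
  w_symm := by
    intro k a b
    show |x a k - x b k| ^ q = |x b k - x a k| ^ q
    rw [abs_sub_comm]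
  w_quasi := fun k a b c => abs_rpow_quasi q hq _ _ _
  hv := by
    intro a b
    have hq0 : q ≠ 0 := by linarith
    show ((∑ k, |x a k - x b k| ^ q) ^ (1 / q)) ^ q = ∑ k, |x a k - x b k| ^ q
    rw [← Real.rpow_mul (Finset.sum_nonneg (fun k _ => Real.rpow_nonneg (abs_nonneg _) q)),
      one_div, inv_mul_cancel₀ hq0, Real.rpow_one]

/-- The numerical form of the sensitivity bound. -/
theorem const_bound (q : ℝ) (hq : 1 ≤ q) (n : ℕ) (hn : 2 ≤ n) :
    2 ^ (1 + q) * (2 * (Nat.log 2 n : ℝ) + 2) ^ q * ((n : ℝ) * ((harmonic n : ℚ) : ℝ))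
      ≤ 6 * 12 ^ q * n * Real.log n ^ (q + 1) := by
  have hq0 : 0 < q := by linarith
  have hn' : (2 : ℝ) ≤ n := by exact_mod_cast hn
  have hnpos : (0 : ℝ) < n := by linarith
  have hl2 := Real.log_two_gt_d9
  have hL2 : Real.log 2 ≤ Real.log n := Real.log_le_log (by norm_num) hn'
  have hLpos : 0 < Real.log n := by linarith
  have hharm : ((harmonic n : ℚ) : ℝ) ≤ 3 * Real.log n := by
    have := harmonic_le_one_add_log n
    linarith
  have hharm0 : 0 ≤ ((harmonic n : ℚ) : ℝ) := by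
    have : (0 : ℚ) ≤ harmonic n := by
      unfold harmonic
      positivity
    exact_mod_cast this
  have hnat : (Nat.log 2 n : ℝ) * Real.log 2 ≤ Real.log n := by
    have h1 : 2 ^ Nat.log 2 n ≤ n := Nat.pow_log_le_self 2 (by omega)
    have h2 : ((2 : ℝ) ^ Nat.log 2 n) ≤ (n : ℝ) := by exact_mod_cast h1
    have h3 := Real.log_le_log (by positivity) h2
    rwa [Real.log_pow] at h3
  have hM0 : (0 : ℝ) ≤ (Nat.log 2 n : ℝ) := Nat.cast_nonneg _
  have hbase : 2 * (Nat.log 2 n : ℝ) + 2 ≤ 6 * Real.log n := by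
    have h1 : (2 * (Nat.log 2 n : ℝ) + 2) * Real.log 2 ≤ 4 * Real.log n := by nlinarith
    have h2 : 4 * Real.log n ≤ 6 * Real.log n * Real.log 2 := by nlinarith
    have h3 : (2 * (Nat.log 2 n : ℝ) + 2) * Real.log 2 ≤ 6 * Real.log n * Real.log 2 := by
      linarith
    exact le_of_mul_le_mul_right h3 (by linarith)
  have hpow : (2 * (Nat.log 2 n : ℝ) + 2) ^ q ≤ 6 ^ q * Real.log n ^ q := by
    rw [← Real.mul_rpow (by norm_num) hLpos.le]
    exact Real.rpow_le_rpow (by linarith) hbase hq0.le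
  have h2A : (2 : ℝ) ^ (1 + q) = 2 * (2 : ℝ) ^ q := by
    rw [Real.rpow_add (by norm_num : (0 : ℝ) < 2), Real.rpow_one]
  have h12 : (12 : ℝ) ^ q = (2 : ℝ) ^ q * (6 : ℝ) ^ q := by
    rw [← Real.mul_rpow (by norm_num) (by norm_num)]
    norm_num
  have hLq1 : Real.log n ^ (q + 1) = Real.log n ^ q * Real.log n :=
    Real.rpow_add_one hLpos.ne' q
  have h2q : 0 < (2 : ℝ) ^ q := Real.rpow_pos_of_pos (by norm_num) q
  have h6q : 0 < (6 : ℝ) ^ q := Real.rpow_pos_of_pos (by norm_num) q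
  have hLq : 0 < Real.log n ^ q := Real.rpow_pos_of_pos hLpos q
  have hE0 : 0 ≤ (2 * (Nat.log 2 n : ℝ) + 2) ^ q := Real.rpow_nonneg (by linarith) q
  rw [h2A, h12, hLq1]
  calc 2 * (2 : ℝ) ^ q * (2 * (Nat.log 2 n : ℝ) + 2) ^ q * ((n : ℝ) * ((harmonic n : ℚ) : ℝ))
      ≤ 2 * (2 : ℝ) ^ q * (6 ^ q * Real.log n ^ q) * ((n : ℝ) * (3 * Real.log n)) := by
        apply mul_le_mul
        · exact mul_le_mul_of_nonneg_left hpow (by positivity)
        · exact mul_le_mul_of_nonneg_left hharm hnpos.le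
        · exact mul_nonneg hnpos.le hharm0
        · positivity
    _ = 6 * ((2 : ℝ) ^ q * 6 ^ q) * n * (Real.log n ^ q * Real.log n) := by ring

/-- The pair-sensitivity bound (A) in the shape consumed by the assembly. -/
theorem sens_statement (q : ℝ) (hq : 1 ≤ q) : H75.SensStatement q (6 * 12 ^ q) := by
  intro n m hn x
  have H := hyp_lp q hq n m x
  obtain ⟨s, hs0, hs, hsum⟩ := exists_sens H
  refine ⟨s, hs0, ?_, ?_⟩
  · intro k a b
    have h := hs k a b
    rw [H.hv a b] at h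
    exact h
  · exact le_trans hsum (const_bound q hq n hn)

/-- The sampling lemma (B) in the shape consumed by the assembly. -/
theorem sampling_statement : H75.SamplingStatement := by
  intro K F _ _ w s v S hw hv hs0 hs hS hSpos ε hε hε1 d hd
  exact Vale.Agent.Lib.P249.sampling w s v S hw hv hs0 hs hS hSpos ε hε hε1 d hd

/-- Near-linear dimension reduction for finite subsets of `ℓ_p`, all `1 ≤ p < ∞`. -/
theorem near_linear (p : ENNReal) [Fact (1 ≤ p)] (hp : p ≠ ⊤) (D : ℝ) (hD : 1 < D) :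
    ∃ C : ℝ, ∀ (n m : ℕ), 2 ≤ n → ∀ x : Fin n → PiLp p (fun _ : Fin m => ℝ),
      ∃ (d : ℕ) (y : Fin n → PiLp p (fun _ : Fin d => ℝ)),
        (d : ℝ) ≤ C * n * Real.log n ^ (p.toReal + 2) ∧
        ∀ i j, dist (x i) (x j) ≤ dist (y i) (y j) ∧
          dist (y i) (y j) ≤ D * dist (x i) (x j) := by
  have hp1 : (1 : ENNReal) ≤ p := Fact.out
  have hq1 : 1 ≤ p.toReal := by
    have := ENNReal.toReal_mono hp hp1
    simpa using this
  exact H75.assemble p hp D hD (6 * 12 ^ p.toReal) (sens_statement p.toReal hq1)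
    sampling_statement

end Vale.Agent.Lib.P249.H21
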