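import Vale.Agent.Lib.P249.helper68.SimpleDom

/-!
# P249: dimension reduction with additive error for families with an `L_p` envelope

Glue: from the finite case (a hypothesis here) and the representation of simple functions
(`simple_dom`) to arbitrary points of `L_p(μ)`.
-/

open MeasureTheory

namespace Vale.Agent.Lib.P249.H21Inc

/-- Tangent line bound for `t ↦ t ^ p`. -/
theorem rpow_sub_le (p : ℝ) (hp : 1 ≤ p) (a b : ℝ) (hb : 0 ≤ b) (hab : b ≤ a) :
    a ^ p - b ^ p ≤ p * a ^ (p - 1) * (a - b) := by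
  have ha : 0 ≤ a := hb.trans hab
  rcases ha.eq_or_lt with h0 | hpos
  · have hb0 : b = 0 := le_antisymm (by rw [h0]; exact hab) hb
    subst hb0
    rw [← h0]
    simp
  · have hs : -1 ≤ b / a - 1 := by
      have : 0 ≤ b / a := div_nonneg hb ha
      linarith
    have hB := one_add_mul_self_le_rpow_one_add hs hp
    have e1 : 1 + (b / a - 1) = b / a := by ring
    rw [e1, Real.div_rpow hb ha] at hB
    have hap : 0 < a ^ p := Real.rpow_pos_of_pos hpos p
    have e2 : a ^ p = a ^ (p - 1) * a := by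
      rw [← Real.rpow_add_one hpos.ne' (p - 1)]
      congr 1
      ring
    have hB2 : (1 + p * (b / a - 1)) * a ^ p ≤ b ^ p := by
      have := mul_le_mul_of_nonneg_right hB hap.le
      rwa [div_mul_cancel₀ _ hap.ne'] at this
    have e3 : (1 + p * (b / a - 1)) * a ^ p = a ^ p - p * a ^ (p - 1) * (a - b) := by
      rw [e2]
      field_simp
      ring
    linarith

/-- Lipschitz bound for `t ↦ t ^ p` on `[0, C]`. -/
theorem abs_rpow_sub_le (p : ℝ) (hp : 1 ≤ p) (C a b : ℝ) (ha : 0 ≤ a) (hb : 0 ≤ b)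
    (haC : a ≤ C) (hbC : b ≤ C) :
    |a ^ p - b ^ p| ≤ p * C ^ (p - 1) * |a - b| := by
  have hp1 : 0 ≤ p - 1 := by linarith
  have hp0 : 0 ≤ p := by linarith
  rcases le_total b a with h | h
  · have h1 := rpow_sub_le p hp a b hb h
    have h2 : a ^ (p - 1) ≤ C ^ (p - 1) := Real.rpow_le_rpow ha haC hp1
    have h3 : 0 ≤ a ^ p - b ^ p := sub_nonneg.mpr (Real.rpow_le_rpow hb h hp0)
    rw [abs_of_nonneg h3, abs_of_nonneg (sub_nonneg.mpr h)]
    calc a ^ p - b ^ p ≤ p * a ^ (p - 1) * (a - b) := h1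
      _ ≤ p * C ^ (p - 1) * (a - b) := by
          apply mul_le_mul_of_nonneg_right _ (sub_nonneg.mpr h)
          exact mul_le_mul_of_nonneg_left h2 hp0
  · have h1 := rpow_sub_le p hp b a ha h
    have h2 : b ^ (p - 1) ≤ C ^ (p - 1) := Real.rpow_le_rpow hb hbC hp1
    have h3 : a ^ p - b ^ p ≤ 0 := sub_nonpos.mpr (Real.rpow_le_rpow ha h hp0)
    rw [abs_of_nonpos h3, abs_of_nonpos (sub_nonpos.mpr h)]
    calc -(a ^ p - b ^ p) = b ^ p - a ^ p := by ring
      _ ≤ p * b ^ (p - 1) * (b - a) := h1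
      _ ≤ p * C ^ (p - 1) * (b - a) := by
          apply mul_le_mul_of_nonneg_right _ (sub_nonneg.mpr h)
          exact mul_le_mul_of_nonneg_left h2 hp0
      _ = p * C ^ (p - 1) * -(a - b) := by ring

/-- `(1 + t) ^ (2 q) ≤ 82 / 81` for `0 ≤ t ≤ 1 / (324 q)`. -/
theorem one_add_rpow_le (q t : ℝ) (hq : 1 ≤ q) (ht0 : 0 ≤ t) (ht : t * (324 * q) ≤ 1) :
    (1 + t) ^ (2 * q) ≤ 82 / 81 := by
  have h1 : 1 + t ≤ Real.exp t := by
    have := Real.add_one_le_exp t
    linarith
  have h2 : (1 + t) ^ (2 * q) ≤ Real.exp t ^ (2 * q) :=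
    Real.rpow_le_rpow (by linarith) h1 (by linarith)
  rw [← Real.exp_mul] at h2
  have hu0 : 0 ≤ t * (2 * q) := by positivity
  have hu1 : t * (2 * q) ≤ 1 / 162 := by linarith
  have h3 : |t * (2 * q)| ≤ 1 := by
    rw [abs_of_nonneg hu0]
    linarith
  have h4 := (abs_le.mp (Real.abs_exp_sub_one_sub_id_le h3)).2
  have h5 : (t * (2 * q)) ^ 2 ≤ (1 / 162) ^ 2 := by
    apply pow_le_pow_left₀ hu0 hu1
  nlinarith

variable {α : Type*} [MeasurableSpace α]

/-- Dimension reduction with additive error for `n` points of `L_p(μ)` with an envelope `g`. -/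
theorem incompressible_of
    (hfin : ∀ (p : ℝ), 1 ≤ p → ∀ (m n : ℕ), 2 ≤ n → ∀ (x : Fin n → Fin m → ℝ) (M : Fin m → ℝ),
      (∀ i k, |x i k| ≤ M k) → ∀ K : ℝ, 0 ≤ K → ∑ k, M k ^ p ≤ K ^ p →
      ∀ ε : ℝ, 0 < ε → ε < (2 * K) ^ p →
      ∃ (d : ℕ) (y : Fin n → Fin d → ℝ),
        (d : ℝ) ≤ 128 * (2 * K) ^ (2 * p) * Real.log n / ε ^ 2 + 1 ∧
        ∀ i j, |∑ l, |y i l - y j l| ^ p - ∑ k, |x i k - x j k| ^ p| ≤ ε)
    (μ : Measure α) (p : ENNReal) [Fact (1 ≤ p)] (hp : p ≠ ⊤) (K ε : ℝ)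
    (hε : 0 < ε) (n : ℕ) (f : Fin n → Lp ℝ p μ) (g : Lp ℝ p μ)
    (hg : ∀ i, ∀ᵐ a ∂μ, |f i a| ≤ g a) (hK : ‖g‖ ≤ K) :
    ∃ (d : ℕ) (y : Fin n → PiLp p (fun _ : Fin d => ℝ)),
      (d : ℝ) ≤ 170 * (2 * K) ^ (2 * p.toReal) * Real.log n / ε ^ 2 ∧
      ∀ i j, |dist (y i) (y j) ^ p.toReal - dist (f i) (f j) ^ p.toReal| ≤ ε := by
  classical
  have hp1 : (1 : ENNReal) ≤ p := Fact.out
  have hq1 : 1 ≤ p.toReal := by
    have := ENNReal.toReal_mono hp hp1
    simpa using this
  have hq0 : 0 < p.toReal := by linarith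
  have hK0 : 0 ≤ K := (norm_nonneg g).trans hK
  have hfg : ∀ i, ‖f i‖ ≤ ‖g‖ := fun i => by
    apply Lp.norm_le_norm_of_ae_le
    filter_upwards [hg i] with a ha
    rw [Real.norm_eq_abs, Real.norm_eq_abs]
    exact ha.trans (le_abs_self _)
  have hdist : ∀ i j, dist (f i) (f j) ≤ 2 * K := fun i j => by
    have h1 := dist_le_norm_add_norm (f i) (f j)
    have h2 := hfg i
    have h3 := hfg j
    linarith
  have hlog : 0 ≤ Real.log n := Real.log_natCast_nonneg n
  have h2K : 0 ≤ 2 * K := by linarith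
  by_cases htriv : n < 2 ∨ (2 * K) ^ p.toReal ≤ ε
  · refine ⟨0, fun _ => 0, ?_, fun i j => ?_⟩
    · have h0 : 0 ≤ 170 * (2 * K) ^ (2 * p.toReal) * Real.log n / ε ^ 2 := by
        have := Real.rpow_nonneg h2K (2 * p.toReal)
        positivity
      simpa using h0
    · rw [dist_self, Real.zero_rpow hq0.ne', zero_sub, abs_neg,
        abs_of_nonneg (Real.rpow_nonneg dist_nonneg _)]
      rcases htriv with hn | hKε
      · have hij : i = j := by
          apply Fin.ext
          have := i.2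
          have := j.2
          omega
        rw [hij, dist_self, Real.zero_rpow hq0.ne']
        exact hε.le
      · exact (Real.rpow_le_rpow dist_nonneg (hdist i j) hq0.le).trans hKε
  · rw [not_or, not_lt, not_le] at htriv
    obtain ⟨hn, hεK⟩ := htriv
    have hKpos : 0 < K := by
      by_contra hcon
      have hK00 : K = 0 := le_antisymm (not_lt.mp hcon) hK0
      rw [hK00, mul_zero, Real.zero_rpow hq0.ne'] at hεK
      linarith
    have hnpos : (0 : ℝ) < n := by exact_mod_cast (by omega : 0 < n)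
    have hn2 : (2 : ℝ) ≤ n := by exact_mod_cast hn
    have h3K : 0 < (3 * K) ^ (p.toReal - 1) := Real.rpow_pos_of_pos (by linarith) _
    obtain ⟨η, hηpos, hη1, hη2⟩ : ∃ η : ℝ, 0 < η ∧ η * (324 * p.toReal * n) ≤ K ∧
        p.toReal * (3 * K) ^ (p.toReal - 1) * (2 * η) ≤ ε / 9 := by
      refine ⟨min (K / (324 * p.toReal * n)) (ε / (18 * p.toReal * (3 * K) ^ (p.toReal - 1))),
        ?_, ?_, ?_⟩
      · apply lt_min <;> positivity
      · have h1 : min (K / (324 * p.toReal * n))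
            (ε / (18 * p.toReal * (3 * K) ^ (p.toReal - 1))) ≤ K / (324 * p.toReal * n) :=
          min_le_left _ _
        rwa [le_div_iff₀ (by positivity)] at h1
      · have h1 : min (K / (324 * p.toReal * n))
            (ε / (18 * p.toReal * (3 * K) ^ (p.toReal - 1))) ≤
              ε / (18 * p.toReal * (3 * K) ^ (p.toReal - 1)) := min_le_right _ _
        rw [le_div_iff₀ (by positivity)] at h1
        linarith
    have hdense : ∀ F : Lp ℝ p μ, ∃ s : Lp.simpleFunc ℝ p μ, dist F (s : Lp ℝ p μ) < η := by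
      intro F
      obtain ⟨s, hs⟩ := (Lp.simpleFunc.denseRange (E := ℝ) (μ := μ) hp).exists_dist_lt F hηpos
      exact ⟨s, hs⟩
    choose s hs using hdense
    have hdom : ∀ i, ∀ᵐ a ∂μ, |(s (f i) : Lp ℝ p μ) a| ≤
        g a + ∑ j, |(s (f j) : Lp ℝ p μ) a - f j a| := by
      intro i
      filter_upwards [hg i] with a ha
      have h1 : |(s (f i) : Lp ℝ p μ) a - f i a| ≤ ∑ j, |(s (f j) : Lp ℝ p μ) a - f j a| :=
        Finset.single_le_sum (f := fun j => |(s (f j) : Lp ℝ p μ) a - f j a|)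
          (fun j _ => abs_nonneg _) (Finset.mem_univ i)
      have h2 : |(s (f i) : Lp ℝ p μ) a| ≤ |f i a| + |(s (f i) : Lp ℝ p μ) a - f i a| := by
        have h3 := abs_add_le (f i a) ((s (f i) : Lp ℝ p μ) a - f i a)
        rwa [add_sub_cancel] at h3
      linarith
    have hFi : ∀ i, eLpNorm (fun a => |(s (f i) : Lp ℝ p μ) a - f i a|) p μ ≤
        ENNReal.ofReal η := by
      intro i
      have hmem : MemLp (⇑(s (f i) : Lp ℝ p μ) - ⇑(f i)) p μ := (Lp.memLp _).sub (Lp.memLp _)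
      have e1 : (fun a => |(s (f i) : Lp ℝ p μ) a - f i a|) =
          fun a => ‖(⇑(s (f i) : Lp ℝ p μ) - ⇑(f i)) a‖ := by
        ext a
        rw [Real.norm_eq_abs]
        rfl
      rw [e1, eLpNorm_norm]
      have e2 : dist (s (f i) : Lp ℝ p μ) (f i) =
          (eLpNorm (⇑(s (f i) : Lp ℝ p μ) - ⇑(f i)) p μ).toReal := Lp.dist_def _ _
      have e3 : eLpNorm (⇑(s (f i) : Lp ℝ p μ) - ⇑(f i)) p μ =
          ENNReal.ofReal (dist (s (f i) : Lp ℝ p μ) (f i)) := by
        rw [e2, ENNReal.ofReal_toReal hmem.2.ne]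
      rw [e3]
      apply ENNReal.ofReal_le_ofReal
      rw [dist_comm]
      exact (hs (f i)).le
    have hmeas : ∀ i, AEStronglyMeasurable (fun a => |(s (f i) : Lp ℝ p μ) a - f i a|) μ := by
      intro i
      have h1 : AEStronglyMeasurable (⇑(s (f i) : Lp ℝ p μ) - ⇑(f i)) μ :=
        (Lp.aestronglyMeasurable _).sub (Lp.aestronglyMeasurable _)
      exact h1.norm
    have hsumfun : (fun a => ∑ i, |(s (f i) : Lp ℝ p μ) a - f i a|) =
        ∑ i, fun a => |(s (f i) : Lp ℝ p μ) a - f i a| := by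
      ext a
      rw [Finset.sum_apply]
    have hsum : eLpNorm (fun a => ∑ i, |(s (f i) : Lp ℝ p μ) a - f i a|) p μ ≤
        ∑ _i : Fin n, ENNReal.ofReal η := by
      rw [hsumfun]
      exact (eLpNorm_sum_le (fun i _ => hmeas i) hp1).trans (Finset.sum_le_sum fun i _ => hFi i)
    have hgn : eLpNorm (⇑g) p μ = ENNReal.ofReal ‖g‖ := by
      rw [Lp.norm_def, ENNReal.ofReal_toReal (Lp.eLpNorm_ne_top g)]
    have hnorm : eLpNorm (fun a => g a + ∑ j, |(s (f j) : Lp ℝ p μ) a - f j a|) p μ ≤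
        ENNReal.ofReal (K + n * η) := by
      have hmsum : AEStronglyMeasurable
          (fun a => ∑ i, |(s (f i) : Lp ℝ p μ) a - f i a|) μ := by
        rw [hsumfun]
        exact Finset.aestronglyMeasurable_sum _ (fun i _ => hmeas i)
      calc eLpNorm (fun a => g a + ∑ j, |(s (f j) : Lp ℝ p μ) a - f j a|) p μ
          ≤ eLpNorm (⇑g) p μ + eLpNorm (fun a => ∑ i, |(s (f i) : Lp ℝ p μ) a - f i a|) p μ :=
            eLpNorm_add_le (Lp.aestronglyMeasurable g) hmsum hp1
        _ ≤ ENNReal.ofReal ‖g‖ + ∑ _i : Fin n, ENNReal.ofReal η := add_le_add hgn.le hsum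
        _ ≤ ENNReal.ofReal (K + n * η) := by
            rw [Finset.sum_const, Finset.card_univ, Fintype.card_fin, nsmul_eq_mul,
              ← ENNReal.ofReal_natCast n, ← ENNReal.ofReal_mul (Nat.cast_nonneg n),
              ← ENNReal.ofReal_add (norm_nonneg g) (by positivity)]
            exact ENNReal.ofReal_le_ofReal (by linarith)
    have hK'pos : 0 < K + n * η := by positivity
    obtain ⟨m, x, M, hxM, hMK, hxd⟩ := Vale.Agent.Lib.P249.H68.simple_dom μ p hp n (fun i => s (f i))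
      (fun a => g a + ∑ j, |(s (f j) : Lp ℝ p μ) a - f j a|) hdom (K + n * η) hK'pos.le hnorm
    have hεK' : 8 * ε / 9 < (2 * (K + n * η)) ^ p.toReal := by
      have h1 : (2 * K) ^ p.toReal ≤ (2 * (K + n * η)) ^ p.toReal :=
        Real.rpow_le_rpow h2K (by nlinarith [hηpos, hnpos]) hq0.le
      linarith
    obtain ⟨d, y₀, hd, hy⟩ := hfin p.toReal hq1 m n hn x M hxM (K + n * η)
      hK'pos.le hMK (8 * ε / 9) (by positivity) hεK'
    refine ⟨d, fun i => WithLp.toLp p (y₀ i), ?_, fun i j => ?_⟩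
    · -- the bound on the dimension
      have hPpos : 0 < (2 * K) ^ (2 * p.toReal) := Real.rpow_pos_of_pos (by linarith) _
      have hP : (2 * K) ^ (2 * p.toReal) = ((2 * K) ^ p.toReal) ^ 2 := by
        rw [mul_comm 2 p.toReal, Real.rpow_mul h2K, Real.rpow_two]
      have hPε : ε ^ 2 ≤ (2 * K) ^ (2 * p.toReal) := by
        rw [hP]
        exact pow_le_pow_left₀ hε.le hεK.le 2
      have ht0 : 0 ≤ n * η / K := by positivity
      have ht1 : n * η / K * (324 * p.toReal) ≤ 1 := by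
        rw [div_mul_eq_mul_div, div_le_one hKpos]
        nlinarith
      have hX : (2 * (K + n * η)) ^ (2 * p.toReal) ≤ (2 * K) ^ (2 * p.toReal) * (82 / 81) := by
        have e : 2 * (K + n * η) = 2 * K * (1 + n * η / K) := by
          field_simp
        rw [e, Real.mul_rpow h2K (by linarith)]
        exact mul_le_mul_of_nonneg_left (one_add_rpow_le p.toReal _ hq1 ht0 ht1) hPpos.le
      have hL : Real.log 2 ≤ Real.log n := Real.log_le_log (by norm_num) hn2
      have hL2 : (0.69 : ℝ) < Real.log 2 := by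
        have := Real.log_two_gt_d9
        linarith
      have hA : Real.log n ≤ (2 * K) ^ (2 * p.toReal) * Real.log n / ε ^ 2 := by
        rw [le_div_iff₀ (by positivity)]
        nlinarith
      have e1 : 128 * (2 * (K + n * η)) ^ (2 * p.toReal) * Real.log n / (8 * ε / 9) ^ 2 =
          162 * ((2 * (K + n * η)) ^ (2 * p.toReal) * Real.log n / ε ^ 2) := by
        field_simp
        ring
      have e2 : (2 * (K + n * η)) ^ (2 * p.toReal) * Real.log n / ε ^ 2 ≤
          (2 * K) ^ (2 * p.toReal) * (82 / 81) * Real.log n / ε ^ 2 := by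
        gcongr
      rw [e1] at hd
      have e3 : 170 * (2 * K) ^ (2 * p.toReal) * Real.log n / ε ^ 2 =
          170 * ((2 * K) ^ (2 * p.toReal) * Real.log n / ε ^ 2) := by ring
      have e4 : (2 * K) ^ (2 * p.toReal) * (82 / 81) * Real.log n / ε ^ 2 =
          82 / 81 * ((2 * K) ^ (2 * p.toReal) * Real.log n / ε ^ 2) := by ring
      rw [e3]
      rw [e4] at e2
      linarith
    · -- the error
      have e1 : dist (WithLp.toLp p (y₀ i)) (WithLp.toLp p (y₀ j)) ^ p.toReal =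
          ∑ l, |y₀ i l - y₀ j l| ^ p.toReal := by
        rw [PiLp.dist_eq_sum hq0, ← Real.rpow_mul
          (Finset.sum_nonneg fun l _ => Real.rpow_nonneg dist_nonneg _), one_div,
          inv_mul_cancel₀ hq0.ne', Real.rpow_one]
        refine Finset.sum_congr rfl fun l _ => ?_
        rw [Real.dist_eq]
      rw [e1]
      have h1 := hy i j
      rw [hxd i j] at h1
      have hab : |dist (s (f i) : Lp ℝ p μ) (s (f j) : Lp ℝ p μ) - dist (f i) (f j)| ≤
          2 * η := by
        have t1 := dist_triangle4 (s (f i) : Lp ℝ p μ) (f i) (f j) (s (f j) : Lp ℝ p μ)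
        have t2 := dist_triangle4 (f i) (s (f i) : Lp ℝ p μ) (s (f j) : Lp ℝ p μ) (f j)
        have u1 := (hs (f i)).le
        have u2 := (hs (f j)).le
        rw [dist_comm (s (f i) : Lp ℝ p μ) (f i)] at t1
        rw [dist_comm (s (f j) : Lp ℝ p μ) (f j)] at t2
        rw [abs_le]
        constructor <;> linarith
      have hη3 : 2 * η ≤ K := by
        have : (2 : ℝ) ≤ 324 * p.toReal * n := by nlinarith
        nlinarith
      have hb3 : dist (f i) (f j) ≤ 3 * K := by linarith [hdist i j]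
      have ha3 : dist (s (f i) : Lp ℝ p μ) (s (f j) : Lp ℝ p μ) ≤ 3 * K := by
        have := (abs_le.mp hab).2
        linarith [hdist i j]
      have h2 := abs_rpow_sub_le p.toReal hq1 (3 * K) _ _ dist_nonneg dist_nonneg ha3 hb3
      have h3 : p.toReal * (3 * K) ^ (p.toReal - 1) *
          |dist (s (f i) : Lp ℝ p μ) (s (f j) : Lp ℝ p μ) - dist (f i) (f j)| ≤ ε / 9 := by
        refine le_trans ?_ hη2
        exact mul_le_mul_of_nonneg_left hab (by positivity)
      calc |∑ l, |y₀ i l - y₀ j l| ^ p.toReal - dist (f i) (f j) ^ p.toReal|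
          ≤ |∑ l, |y₀ i l - y₀ j l| ^ p.toReal -
              dist (s (f i) : Lp ℝ p μ) (s (f j) : Lp ℝ p μ) ^ p.toReal| +
            |dist (s (f i) : Lp ℝ p μ) (s (f j) : Lp ℝ p μ) ^ p.toReal -
              dist (f i) (f j) ^ p.toReal| := abs_sub_le _ _ _
        _ ≤ 8 * ε / 9 + ε / 9 := add_le_add h1 (h2.trans h3)
        _ = ε := by ring

end Vale.Agent.Lib.P249.H21Inc
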