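import Vale.Agent.Lib.P249.helper52.FinalEps

/-!
# P249: weighted coordinate selections, uniformly in the accuracy

From a bound `∑ k, s k ≤ B * n * (log n) ^ a` on the total pair sensitivity of every `n`-point
subset of `ℓ_p^m` to a map of distortion `1 + ε` into `ℓ_p^d` which is a weighted selection of
`d ≤ (288 B + (log 2)^(-(a+1))) ε⁻² n (log n)^(a+1)` coordinates.
-/

namespace Vale.Agent.Lib.P249.H21

open Finset
open scoped ENNReal

/-- Weighted coordinate samples give explicit weighted coordinate selections into `ℓ_p^d`. -/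
theorem lin_glue (p : ℝ≥0∞) [Fact (1 ≤ p)] (hp : p ≠ ⊤) {n m d : ℕ}
    (x : Fin n → PiLp p (fun _ : Fin m => ℝ)) (κ : Fin d → Fin m) (c : Fin d → ℝ)
    (hc : ∀ l, 0 ≤ c l) (lo hi : ℝ) (hlo : 0 < lo) (hhi : 0 ≤ hi)
    (h : ∀ i j,
      lo * ∑ k, |x i k - x j k| ^ p.toReal ≤
          ∑ l, |x i (κ l) - x j (κ l)| ^ p.toReal * c l ∧
        ∑ l, |x i (κ l) - x j (κ l)| ^ p.toReal * c l ≤
          hi * ∑ k, |x i k - x j k| ^ p.toReal) (i j : Fin n) :
    dist (x i) (x j) ≤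
        dist (WithLp.toLp p (fun l => (c l / lo) ^ (1 / p.toReal) * x i (κ l)) :
            PiLp p (fun _ : Fin d => ℝ))
          (WithLp.toLp p (fun l => (c l / lo) ^ (1 / p.toReal) * x j (κ l))) ∧
      dist (WithLp.toLp p (fun l => (c l / lo) ^ (1 / p.toReal) * x i (κ l)) :
            PiLp p (fun _ : Fin d => ℝ))
          (WithLp.toLp p (fun l => (c l / lo) ^ (1 / p.toReal) * x j (κ l))) ≤
        (hi / lo) ^ (1 / p.toReal) * dist (x i) (x j) := by
  have hq1 : 1 ≤ p.toReal := glue_one_le_toReal p hp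
  have hq : 0 < p.toReal := lt_of_lt_of_le one_pos hq1
  have hq' : 0 ≤ 1 / p.toReal := by positivity
  have hV0 : 0 ≤ ∑ k, |x i k - x j k| ^ p.toReal :=
    Finset.sum_nonneg fun k _ => Real.rpow_nonneg (abs_nonneg _) _
  have hterm : ∀ l : Fin d,
      |(c l / lo) ^ (1 / p.toReal) * x i (κ l) - (c l / lo) ^ (1 / p.toReal) * x j (κ l)|
          ^ p.toReal = |x i (κ l) - x j (κ l)| ^ p.toReal * c l / lo := by
    intro l
    have hcl : 0 ≤ c l / lo := div_nonneg (hc l) hlo.le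
    have ht : 0 ≤ (c l / lo) ^ (1 / p.toReal) := Real.rpow_nonneg hcl _
    rw [← mul_sub, abs_mul, abs_of_nonneg ht, Real.mul_rpow ht (abs_nonneg _),
      ← Real.rpow_mul hcl, one_div_mul_cancel hq.ne', Real.rpow_one]
    ring
  have hy : dist (WithLp.toLp p (fun l => (c l / lo) ^ (1 / p.toReal) * x i (κ l)) :
            PiLp p (fun _ : Fin d => ℝ))
      (WithLp.toLp p fun l => (c l / lo) ^ (1 / p.toReal) * x j (κ l)) =
      ((∑ l, |x i (κ l) - x j (κ l)| ^ p.toReal * c l) / lo) ^ (1 / p.toReal) := by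
    rw [glue_dist_eq p hp]
    congr 1
    rw [Finset.sum_div]
    exact Finset.sum_congr rfl fun l _ => hterm l
  rw [hy, glue_dist_eq p hp (x i) (x j)]
  obtain ⟨h1, h2⟩ := h i j
  constructor
  · apply Real.rpow_le_rpow hV0 _ hq'
    rw [le_div_iff₀ hlo]
    linarith
  · rw [← Real.mul_rpow (div_nonneg hhi hlo.le) hV0]
    apply Real.rpow_le_rpow (div_nonneg (le_trans (mul_nonneg hlo.le hV0) h1) hlo.le) _ hq'
    rw [div_le_iff₀ hlo]
    have : hi / lo * (∑ k, |x i k - x j k| ^ p.toReal) * lo =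
        hi * ∑ k, |x i k - x j k| ^ p.toReal := by
      field_simp
    rw [this]
    exact h2

/-- From positive total sensitivity to a weighted coordinate selection. -/
theorem embed_lin_pos (p : ℝ≥0∞) [Fact (1 ≤ p)] (hp : p ≠ ⊤) {n m : ℕ}
    (x : Fin n → PiLp p (fun _ : Fin m => ℝ)) (s : Fin m → ℝ) (hs0 : ∀ k, 0 ≤ s k)
    (hs : ∀ k i j, |x i k - x j k| ^ p.toReal ≤ s k * ∑ k', |x i k' - x j k'| ^ p.toReal)
    (hS : 0 < ∑ k, s k)
    (ε : ℝ) (hε : 0 < ε) (hε1 : ε < 1) (d : ℕ)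
    (hd : 8 * (∑ k, s k) * Real.log (2 * ((n : ℝ) * n) + 1) ≤ ε ^ 2 * d) :
    ∃ (κ : Fin d → Fin m) (c : Fin d → ℝ), ∀ i j,
      dist (x i) (x j) ≤
          dist (WithLp.toLp p (fun l => c l * x i (κ l)) : PiLp p (fun _ : Fin d => ℝ))
            (WithLp.toLp p (fun l => c l * x j (κ l))) ∧
        dist (WithLp.toLp p (fun l => c l * x i (κ l)) : PiLp p (fun _ : Fin d => ℝ))
            (WithLp.toLp p (fun l => c l * x j (κ l))) ≤
          ((1 + ε) / (1 - ε)) ^ (1 / p.toReal) * dist (x i) (x j) := by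
  obtain ⟨κ, hκ⟩ := sampling (K := Fin m) (F := Fin n × Fin n)
    (fun k f => |x f.1 k - x f.2 k| ^ p.toReal) s
    (fun f => ∑ k, |x f.1 k - x f.2 k| ^ p.toReal) (∑ k, s k)
    (fun k f => Real.rpow_nonneg (abs_nonneg _) _) (fun f => rfl) hs0
    (fun k f => hs k f.1 f.2) rfl hS ε hε hε1.le d
    (by simpa [Fintype.card_prod] using hd)
  refine ⟨κ, fun l => ((∑ k, s k) / ((d : ℝ) * s (κ l)) / (1 - ε)) ^ (1 / p.toReal), ?_⟩
  intro i j
  exact lin_glue p hp x κ (fun l => (∑ k, s k) / ((d : ℝ) * s (κ l)))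
    (fun l => div_nonneg hS.le (mul_nonneg (Nat.cast_nonneg d) (hs0 _))) (1 - ε) (1 + ε)
    (by linarith) (by linarith) (fun i j => hκ (i, j)) i j

/-- From a bound on the total sensitivity to a weighted coordinate selection of distortion
`1 + ε`, with an explicit dimension bound. -/
theorem lin_eps_of_sens (p : ℝ≥0∞) [Fact (1 ≤ p)] (hp : p ≠ ⊤)
    (B a : ℝ) (hB : 0 ≤ B) (ha : 0 ≤ a)
    (hA : ∀ (n m : ℕ), 2 ≤ n → ∀ x : Fin n → PiLp p (fun _ : Fin m => ℝ),
      ∃ s : Fin m → ℝ, (∀ k, 0 ≤ s k) ∧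
        (∀ k i j, |x i k - x j k| ^ p.toReal ≤ s k * ∑ k', |x i k' - x j k'| ^ p.toReal) ∧
        ∑ k, s k ≤ B * n * Real.log n ^ a)
    (ε : ℝ) (hε : 0 < ε) (hε1 : ε ≤ 1) (n m : ℕ) (hn : 2 ≤ n)
    (x : Fin n → PiLp p (fun _ : Fin m => ℝ)) :
    ∃ (d : ℕ) (κ : Fin d → Fin m) (c : Fin d → ℝ),
      (d : ℝ) ≤ (288 * B + 1 / Real.log 2 ^ (a + 1)) / ε ^ 2 * n * Real.log n ^ (a + 1) ∧
      ∀ i j,
        dist (x i) (x j) ≤
            dist (WithLp.toLp p (fun l => c l * x i (κ l)) : PiLp p (fun _ : Fin d => ℝ))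
              (WithLp.toLp p (fun l => c l * x j (κ l))) ∧
          dist (WithLp.toLp p (fun l => c l * x i (κ l)) : PiLp p (fun _ : Fin d => ℝ))
              (WithLp.toLp p (fun l => c l * x j (κ l))) ≤
            (1 + ε) * dist (x i) (x j) := by
  have hq1 := glue_one_le_toReal p hp
  have hq : 0 < p.toReal := by linarith
  have hlog2 : 0 < Real.log 2 := Real.log_pos (by norm_num)
  have hεD := final_eps_third p.toReal ε hq1 hε hε1
  obtain ⟨s, hs0, hs, hS⟩ := hA n m hn x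
  have hn' : (2 : ℝ) ≤ n := by exact_mod_cast hn
  have hlogn : Real.log 2 ≤ Real.log n := Real.log_le_log (by norm_num) hn'
  have hlogpos : 0 < Real.log n := lt_of_lt_of_le hlog2 hlogn
  have hpa1 : 0 ≤ Real.log n ^ (a + 1) := Real.rpow_nonneg hlogpos.le _
  have hS0 : 0 ≤ ∑ k, s k := Finset.sum_nonneg fun k _ => hs0 k
  rcases hS0.lt_or_eq with hSpos | hSzero
  · -- the main case
    have hδ : 0 < ε / 3 := by positivity
    have hδ1 : ε / 3 < 1 := by linarith
    have hL := final_log_pairs n hn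
    have hL0 : 0 ≤ Real.log (2 * ((n : ℝ) * n) + 1) := Real.log_nonneg (by nlinarith)
    obtain ⟨T, hT⟩ : ∃ T : ℝ,
        T = 8 * (∑ k, s k) * Real.log (2 * ((n : ℝ) * n) + 1) / (ε / 3) ^ 2 := ⟨_, rfl⟩
    have hT0 : 0 ≤ T := by rw [hT]; positivity
    have hd : 8 * (∑ k, s k) * Real.log (2 * ((n : ℝ) * n) + 1) ≤ (ε / 3) ^ 2 * (⌈T⌉₊ : ℝ) := by
      have h1 : T ≤ (⌈T⌉₊ : ℝ) := Nat.le_ceil T
      have h2 : 8 * (∑ k, s k) * Real.log (2 * ((n : ℝ) * n) + 1) = (ε / 3) ^ 2 * T := by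
        rw [hT]
        field_simp
      rw [h2]
      exact mul_le_mul_of_nonneg_left h1 (by positivity)
    obtain ⟨κ, c, hy⟩ := embed_lin_pos p hp x s hs0 hs hSpos (ε / 3) hδ hδ1 ⌈T⌉₊ hd
    refine ⟨⌈T⌉₊, κ, c, ?_, fun i j => ⟨(hy i j).1, le_trans (hy i j).2 ?_⟩⟩
    · -- the dimension bound
      have hpow : Real.log n ^ (a + 1) = Real.log n ^ a * Real.log n :=
        Real.rpow_add_one hlogpos.ne' a
      have hpa : 0 ≤ Real.log n ^ a := Real.rpow_nonneg hlogpos.le a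
      have hc1 : (⌈T⌉₊ : ℝ) < T + 1 := Nat.ceil_lt_add_one hT0
      have hT2 : T ≤ 288 * B / ε ^ 2 * (n * Real.log n ^ (a + 1)) := by
        have h3 : 8 * (∑ k, s k) * Real.log (2 * ((n : ℝ) * n) + 1) ≤
            8 * (B * n * Real.log n ^ a) * (4 * Real.log n) := by
          apply mul_le_mul (by linarith) hL hL0
          positivity
        rw [hT, div_le_iff₀ (by positivity)]
        have h4 : 288 * B / ε ^ 2 * (n * Real.log n ^ (a + 1)) * (ε / 3) ^ 2 =
            8 * (B * n * Real.log n ^ a) * (4 * Real.log n) := by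
          rw [hpow]
          field_simp
          ring
        rw [h4]
        exact h3
      have hone : 1 ≤ 1 / Real.log 2 ^ (a + 1) / ε ^ 2 * (n * Real.log n ^ (a + 1)) := by
        have h5 : Real.log 2 ^ (a + 1) ≤ Real.log n ^ (a + 1) :=
          Real.rpow_le_rpow hlog2.le hlogn (by linarith)
        have h6 : 0 < Real.log 2 ^ (a + 1) := Real.rpow_pos_of_pos hlog2 _
        have h7 : ε ^ 2 ≤ 1 := by nlinarith
        have h8 : 0 < ε ^ 2 := by positivity
        rw [div_div, one_div, inv_mul_eq_div, le_div_iff₀ (by positivity)]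
        have h9 : Real.log 2 ^ (a + 1) * ε ^ 2 ≤ Real.log n ^ (a + 1) * 1 :=
          mul_le_mul h5 h7 h8.le hpa1
        nlinarith
      calc (⌈T⌉₊ : ℝ) ≤ T + 1 := hc1.le
        _ ≤ 288 * B / ε ^ 2 * (n * Real.log n ^ (a + 1)) +
              1 / Real.log 2 ^ (a + 1) / ε ^ 2 * (n * Real.log n ^ (a + 1)) :=
            add_le_add hT2 hone
        _ = (288 * B + 1 / Real.log 2 ^ (a + 1)) / ε ^ 2 * n * Real.log n ^ (a + 1) := by ring
    · exact mul_le_mul_of_nonneg_right hεD dist_nonneg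
  · -- the degenerate case: all points coincide, and no coordinate is needed
    have hsk : ∀ k, s k = 0 := fun k =>
      (Finset.sum_eq_zero_iff_of_nonneg fun k _ => hs0 k).mp hSzero.symm k (Finset.mem_univ k)
    have hx : ∀ i j, dist (x i) (x j) = 0 := by
      intro i j
      rw [glue_dist_eq p hp]
      have h0 : ∀ k, |x i k - x j k| ^ p.toReal = 0 := by
        intro k
        have h1 := hs k i j
        rw [hsk k, zero_mul] at h1
        exact le_antisymm h1 (Real.rpow_nonneg (abs_nonneg _) _)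
      simp only [h0, Finset.sum_const_zero]
      exact Real.zero_rpow (one_div_pos.mpr hq).ne'
    have hy : ∀ a b : PiLp p (fun _ : Fin 0 => ℝ), dist a b = 0 := by
      intro a b
      rw [glue_dist_eq p hp]
      simp only [Finset.univ_eq_empty, Finset.sum_empty]
      exact Real.zero_rpow (one_div_pos.mpr hq).ne'
    refine ⟨0, fun l => l.elim0, fun l => l.elim0, ?_, fun i j => ?_⟩
    · have h6 : 0 < Real.log 2 ^ (a + 1) := Real.rpow_pos_of_pos hlog2 _
      have hn0 : (0 : ℝ) ≤ n := by linarith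
      simp only [Nat.cast_zero]
      positivity
    · rw [hx i j, hy]
      simp

end Vale.Agent.Lib.P249.H21
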