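import Vale.Agent.Lib.P249.helper75.KNN
import Vale.Agent.Lib.P249.helper21.LinEps
import Vale.Agent.Lib.P249.helper21.LpApprox

/-!
# P249: the `n log n` dimension bound for finite subsets of an arbitrary `L_p(μ)`

`nlogn_sel` is the statement of the hand-in `NLogN` (weighted coordinate selection for points of
`ℓ_p^m`; the mathematics is helper59's nearest-neighbour bound on the total pair sensitivity, the
Lean of the sensitivity bound is helper75's `KNN.sens_knn`, and the derivation below follows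
helper75's hand-in).  `nlogn_Lp` transfers it to finitely many points of `L_p(μ)` over an
arbitrary measure space by `lp_finite_approx`.
-/

namespace Vale.Agent.Lib.P249.H21Lp

theorem nlogn_sel (p : ENNReal) [Fact (1 ≤ p)] (hp : p ≠ ⊤) (ε : ℝ) (hε : 0 < ε) (hε1 : ε ≤ 1)
    (n m : ℕ) (hn : 2 ≤ n) (x : Fin n → PiLp p (fun _ : Fin m => ℝ)) :
    ∃ (d : ℕ) (κ : Fin d → Fin m) (c : Fin d → ℝ),
      (d : ℝ) ≤ 289 * 76 ^ p.toReal / ε ^ 2 * n * Real.log n ∧
      ∀ i j,
        dist (x i) (x j) ≤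
            dist (WithLp.toLp p (fun l => c l * x i (κ l)) : PiLp p (fun _ : Fin d => ℝ))
              (WithLp.toLp p (fun l => c l * x j (κ l))) ∧
          dist (WithLp.toLp p (fun l => c l * x i (κ l)) : PiLp p (fun _ : Fin d => ℝ))
              (WithLp.toLp p (fun l => c l * x j (κ l))) ≤
            (1 + ε) * dist (x i) (x j) := by
  have hp1 : (1 : ENNReal) ≤ p := Fact.out
  have hq1 : 1 ≤ p.toReal := by
    have := ENNReal.toReal_mono hp hp1
    simpa using this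
  have h76 : (76 : ℝ) ≤ (76 : ℝ) ^ p.toReal := by
    have := Real.rpow_le_rpow_of_exponent_le (by norm_num : (1 : ℝ) ≤ 76) hq1
    simpa using this
  obtain ⟨d, κ, c, hd, hy⟩ := Vale.Agent.Lib.P249.H21.lin_eps_of_sens p hp
    ((76 : ℝ) ^ p.toReal) 0 (by linarith) le_rfl
    (fun n m _ x => by
      obtain ⟨s, hs0, hs, hS⟩ :=
        Vale.Agent.Lib.P249.H75.KNN.sens_knn p.toReal hq1 n m (fun i k => x i k)
      refine ⟨s, hs0, hs, ?_⟩
      rw [Real.rpow_zero, mul_one]
      exact hS)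
    ε hε hε1 n m hn x
  refine ⟨d, κ, c, le_trans hd ?_, hy⟩
  rw [zero_add, Real.rpow_one, Real.rpow_one]
  have hn' : (2 : ℝ) ≤ n := by exact_mod_cast hn
  have hlogn : 0 < Real.log n := Real.log_pos (by linarith)
  have hε2 : 0 < ε ^ 2 := by positivity
  have hl2 : (1 / 2 : ℝ) ≤ Real.log 2 := by
    have := Real.log_two_gt_d9
    linarith
  have h1 : 1 / Real.log 2 ≤ 2 := by
    rw [div_le_iff₀ (by linarith)]
    linarith
  have hC : 288 * (76 : ℝ) ^ p.toReal + 1 / Real.log 2 ≤ 289 * (76 : ℝ) ^ p.toReal := by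
    linarith
  have hfac : 0 ≤ 1 / ε ^ 2 * ((n : ℝ) * Real.log n) := by positivity
  calc (288 * (76 : ℝ) ^ p.toReal + 1 / Real.log 2) / ε ^ 2 * n * Real.log n
      = (288 * (76 : ℝ) ^ p.toReal + 1 / Real.log 2) * (1 / ε ^ 2 * ((n : ℝ) * Real.log n)) := by
        ring
    _ ≤ 289 * (76 : ℝ) ^ p.toReal * (1 / ε ^ 2 * ((n : ℝ) * Real.log n)) :=
        mul_le_mul_of_nonneg_right hC hfac
    _ = 289 * 76 ^ p.toReal / ε ^ 2 * n * Real.log n := by ring

/-- Any `n ≥ 2` points of `L_p(μ)`, over an arbitrary measure space and for `1 ≤ p < ∞`, are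
mapped into `ℓ_p^d` with `d ≤ 290 · 76^p · ε⁻² · n · log n` so that no distance shrinks and none
grows by more than the factor `1 + ε`. -/
theorem nlogn_Lp {α : Type*} [MeasurableSpace α] (μ : MeasureTheory.Measure α)
    (p : ENNReal) [Fact (1 ≤ p)] (hp : p ≠ ⊤) (ε : ℝ) (hε : 0 < ε) (hε1 : ε ≤ 1)
    (n : ℕ) (hn : 2 ≤ n) (f : Fin n → MeasureTheory.Lp ℝ p μ) :
    ∃ (d : ℕ) (y : Fin n → PiLp p (fun _ : Fin d => ℝ)),
      (d : ℝ) ≤ 290 * 76 ^ p.toReal / ε ^ 2 * n * Real.log n ∧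
      ∀ i j, dist (f i) (f j) ≤ dist (y i) (y j) ∧
        dist (y i) (y j) ≤ (1 + ε) * dist (f i) (f j) := by
  have hη0 : 0 < ε / 4000 := by positivity
  have hε₁0 : 0 < 599 * ε / 600 := by positivity
  have hε₁1 : 599 * ε / 600 ≤ 1 := by linarith
  obtain ⟨m, x, hx⟩ := lp_finite_approx μ p hp n f (ε / 4000) hη0
  obtain ⟨d, κ, c, hd, hy⟩ := nlogn_sel p hp (599 * ε / 600) hε₁0 hε₁1 n m hn x
  have h1η : 0 < 1 - ε / 4000 := by linarith
  refine ⟨d, fun i => (1 - ε / 4000)⁻¹ •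
    (WithLp.toLp p (fun l => c l * x i (κ l)) : PiLp p (fun _ : Fin d => ℝ)), ?_, fun i j => ?_⟩
  · refine le_trans hd ?_
    have hn' : (2 : ℝ) ≤ n := by exact_mod_cast hn
    have hlogn : 0 < Real.log n := Real.log_pos (by linarith)
    have hB : 0 < (76 : ℝ) ^ p.toReal := by positivity
    have hε2 : 0 < ε ^ 2 := by positivity
    have key : 289 / (599 * ε / 600) ^ 2 ≤ 290 / ε ^ 2 := by
      rw [div_le_div_iff₀ (by positivity) hε2]
      nlinarith [hε2]
    have hfac : 0 ≤ (76 : ℝ) ^ p.toReal * n * Real.log n := by positivity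
    calc 289 * (76 : ℝ) ^ p.toReal / (599 * ε / 600) ^ 2 * n * Real.log n
        = 289 / (599 * ε / 600) ^ 2 * ((76 : ℝ) ^ p.toReal * n * Real.log n) := by ring
      _ ≤ 290 / ε ^ 2 * ((76 : ℝ) ^ p.toReal * n * Real.log n) :=
          mul_le_mul_of_nonneg_right key hfac
      _ = 290 * 76 ^ p.toReal / ε ^ 2 * n * Real.log n := by ring
  · rw [dist_smul₀]
    obtain ⟨h1, h2⟩ := hy i j
    obtain ⟨h3, h4⟩ := hx i j
    have hnorm : ‖(1 - ε / 4000)⁻¹‖ = (1 - ε / 4000)⁻¹ := by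
      rw [Real.norm_eq_abs, abs_of_pos (inv_pos.mpr h1η)]
    rw [hnorm]
    have hdf : 0 ≤ dist (f i) (f j) := dist_nonneg
    constructor
    · rw [← div_eq_inv_mul, le_div_iff₀ h1η]
      linarith
    · rw [← div_eq_inv_mul, div_le_iff₀ h1η]
      have hA : dist (WithLp.toLp p (fun l => c l * x i (κ l)) : PiLp p (fun _ : Fin d => ℝ))
          (WithLp.toLp p (fun l => c l * x j (κ l))) ≤
          (1 + 599 * ε / 600) * ((1 + ε / 4000) * dist (f i) (f j)) :=
        le_trans h2 (mul_le_mul_of_nonneg_left h4 (by linarith))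
      have hBB : (1 + 599 * ε / 600) * (1 + ε / 4000) ≤ (1 + ε) * (1 - ε / 4000) := by
        nlinarith [mul_le_mul_of_nonneg_left hε1 hε.le]
      have hCC : (1 + 599 * ε / 600) * (1 + ε / 4000) * dist (f i) (f j) ≤
          (1 + ε) * (1 - ε / 4000) * dist (f i) (f j) :=
        mul_le_mul_of_nonneg_right hBB hdf
      linarith

end Vale.Agent.Lib.P249.H21Lp
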