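import Mathlib

/-!
# P249: padding a hard point family, and the choice of the grid parameter (helper21)

`pad_lower`: if `N` distinct points of `ℓ_p^m` force `B ≤ D^p * d` for every map of distortion `D`
into `ℓ_p^d`, then for every `n ≥ N` there are `n` distinct points of `ℓ_p^(m+1)` forcing the same.
`exists_grid_k`: for `n ≥ 7` there is `k ≥ 1` with `(6k+1)^k ≤ n` and
`log n / log (6 log n + 7) ≤ 2k`.
-/

namespace Vale.Agent.Lib.P249.H21Pad

open Finset

theorem pad_lower (p : ENNReal) [Fact (1 ≤ p)] (hp : p ≠ ⊤) (N m : ℕ)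
    (x₀ : Fin N → PiLp p (fun _ : Fin m => ℝ)) (hinj : Function.Injective x₀) (B : ℝ)
    (hB : ∀ (d : ℕ) (y : Fin N → PiLp p (fun _ : Fin d => ℝ)) (s D : ℝ), 0 < s →
      (∀ i j, s * dist (x₀ i) (x₀ j) ≤ dist (y i) (y j) ∧
        dist (y i) (y j) ≤ D * s * dist (x₀ i) (x₀ j)) → B ≤ D ^ p.toReal * d)
    (n : ℕ) (hn : N ≤ n) :
    ∃ (m' : ℕ) (x : Fin n → PiLp p (fun _ : Fin m' => ℝ)), Function.Injective x ∧
      ∀ (d : ℕ) (y : Fin n → PiLp p (fun _ : Fin d => ℝ)) (s D : ℝ), 0 < s →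
        (∀ i j, s * dist (x i) (x j) ≤ dist (y i) (y j) ∧
          dist (y i) (y j) ≤ D * s * dist (x i) (x j)) → B ≤ D ^ p.toReal * d := by
  classical
  have hp1 : (1 : ENNReal) ≤ p := Fact.out
  have hq1 : 1 ≤ p.toReal := by
    have := ENNReal.toReal_mono hp hp1
    simpa using this
  have hq0 : 0 < p.toReal := by linarith
  let v : Fin n → Fin (m + 1) → ℝ := fun i =>
    if h : (i : ℕ) < N then Fin.snoc (fun l => x₀ ⟨i, h⟩ l) (0 : ℝ)
    else Fin.snoc (fun _ => (0 : ℝ)) ((i : ℝ) + 1)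
  have v_small : ∀ i : Fin n, ∀ h : (i : ℕ) < N,
      v i = Fin.snoc (fun l => x₀ ⟨i, h⟩ l) (0 : ℝ) := by
    intro i h
    simp only [v, h, dif_pos]
  have v_big : ∀ i : Fin n, ¬ (i : ℕ) < N →
      v i = Fin.snoc (fun _ => (0 : ℝ)) ((i : ℝ) + 1) := by
    intro i h
    simp only [v, h, dif_neg, not_false_eq_true]
  refine ⟨m + 1, fun i => WithLp.toLp p (v i), ?_, ?_⟩
  · intro i j hij
    have hv : v i = v j := (WithLp.toLp_injective p) hij
    by_cases hi : (i : ℕ) < N <;> by_cases hj : (j : ℕ) < N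
    · rw [v_small i hi, v_small j hj] at hv
      have h2 : x₀ ⟨i, hi⟩ = x₀ ⟨j, hj⟩ := by
        ext l
        have := congrFun hv (Fin.castSucc l)
        simpa only [Fin.snoc_castSucc] using this
      have h3 := hinj h2
      exact Fin.ext (by simpa using congrArg Fin.val h3)
    · rw [v_small i hi, v_big j hj] at hv
      have := congrFun hv (Fin.last m)
      simp only [Fin.snoc_last] at this
      have hjpos : (0 : ℝ) ≤ ((j : ℕ) : ℝ) := Nat.cast_nonneg _
      exfalso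
      linarith
    · rw [v_big i hi, v_small j hj] at hv
      have := congrFun hv (Fin.last m)
      simp only [Fin.snoc_last] at this
      have hipos : (0 : ℝ) ≤ ((i : ℕ) : ℝ) := Nat.cast_nonneg _
      exfalso
      linarith
    · rw [v_big i hi, v_big j hj] at hv
      have := congrFun hv (Fin.last m)
      simp only [Fin.snoc_last] at this
      have h4 : ((i : ℕ) : ℝ) = ((j : ℕ) : ℝ) := by linarith
      exact Fin.ext (by exact_mod_cast h4)
  · intro d y s D hs hy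
    apply hB d (fun i => y (Fin.castLE hn i)) s D hs
    intro i j
    have hd : dist (WithLp.toLp p (v (Fin.castLE hn i)) : PiLp p (fun _ : Fin (m + 1) => ℝ))
        (WithLp.toLp p (v (Fin.castLE hn j))) = dist (x₀ i) (x₀ j) := by
      have hi : ((Fin.castLE hn i : Fin n) : ℕ) < N := by
        rw [Fin.val_castLE]; exact i.isLt
      have hj : ((Fin.castLE hn j : Fin n) : ℕ) < N := by
        rw [Fin.val_castLE]; exact j.isLt
      rw [PiLp.dist_eq_sum hq0, PiLp.dist_eq_sum hq0, Fin.sum_univ_castSucc]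
      rw [v_small _ hi, v_small _ hj]
      simp only [Fin.snoc_castSucc, Fin.snoc_last, dist_self,
        Real.zero_rpow hq0.ne', add_zero]
      rfl
    have := hy (Fin.castLE hn i) (Fin.castLE hn j)
    rw [hd] at this
    exact this

theorem exists_grid_k (n : ℕ) (hn : 7 ≤ n) :
    ∃ k : ℕ, 1 ≤ k ∧ (6 * k + 1) ^ k ≤ n ∧
      Real.log n / Real.log (6 * Real.log n + 7) ≤ 2 * k := by
  classical
  have hP1 : (6 * 1 + 1) ^ 1 ≤ n := by norm_num; exact hn
  have h1n : 1 ≤ n := by omega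
  obtain ⟨k, hkdef⟩ : ∃ k, k = Nat.findGreatest (fun k => (6 * k + 1) ^ k ≤ n) n := ⟨_, rfl⟩
  have hk1 : 1 ≤ k := by
    rw [hkdef]
    exact Nat.le_findGreatest h1n hP1
  have hPk : (6 * k + 1) ^ k ≤ n := by
    rw [hkdef]
    exact Nat.findGreatest_spec (P := fun k => (6 * k + 1) ^ k ≤ n) h1n hP1
  have hk0 : k ≠ 0 := by omega
  have hkn : k + 1 ≤ n := by
    have h1 : 6 * k + 1 ≤ (6 * k + 1) ^ k := Nat.le_self_pow hk0 _
    omega
  have hnot : ¬ (6 * (k + 1) + 1) ^ (k + 1) ≤ n := by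
    have hlt : Nat.findGreatest (fun k => (6 * k + 1) ^ k ≤ n) n < k + 1 := by
      rw [← hkdef]; omega
    exact Nat.findGreatest_is_greatest (P := fun k => (6 * k + 1) ^ k ≤ n) hlt hkn
  have hlt : n < (6 * (k + 1) + 1) ^ (k + 1) := by omega
  refine ⟨k, hk1, hPk, ?_⟩
  have hn0 : (0 : ℝ) < n := by exact_mod_cast (by omega : 0 < n)
  have hk1' : (1 : ℝ) ≤ k := by exact_mod_cast hk1
  -- k ≤ log n
  have hlog7 : 1 ≤ Real.log (6 * (k : ℝ) + 1) := by
    rw [Real.le_log_iff_exp_le (by linarith)]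
    have := Real.exp_one_lt_d9
    linarith
  have hPk' : ((6 * (k : ℝ) + 1)) ^ k ≤ (n : ℝ) := by exact_mod_cast hPk
  have h2 : (k : ℝ) * Real.log (6 * (k : ℝ) + 1) ≤ Real.log n := by
    rw [← Real.log_pow]
    exact Real.log_le_log (by positivity) hPk'
  have hkle : (k : ℝ) ≤ Real.log n := by nlinarith
  -- log n < (k+1) log (6k+7)
  have hlt' : (n : ℝ) < (6 * (k : ℝ) + 7) ^ (k + 1) := by
    have : (n : ℝ) < ((6 * (k + 1) + 1 : ℕ) : ℝ) ^ (k + 1) := by exact_mod_cast hlt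
    have e : ((6 * (k + 1) + 1 : ℕ) : ℝ) = 6 * (k : ℝ) + 7 := by push_cast; ring
    rwa [e] at this
  have h3 : Real.log n < ((k : ℝ) + 1) * Real.log (6 * (k : ℝ) + 7) := by
    have := Real.log_lt_log hn0 hlt'
    rw [Real.log_pow] at this
    push_cast at this
    exact this
  have h4 : Real.log (6 * (k : ℝ) + 7) ≤ Real.log (6 * Real.log n + 7) :=
    Real.log_le_log (by positivity) (by linarith)
  have hpos : 0 < Real.log (6 * Real.log n + 7) := by
    apply Real.log_pos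
    linarith
  rw [div_le_iff₀ hpos]
  have h5 : ((k : ℝ) + 1) * Real.log (6 * (k : ℝ) + 7) ≤
      ((k : ℝ) + 1) * Real.log (6 * Real.log n + 7) :=
    mul_le_mul_of_nonneg_left h4 (by linarith)
  have h6 : ((k : ℝ) + 1) * Real.log (6 * Real.log n + 7) ≤
      (2 * (k : ℝ)) * Real.log (6 * Real.log n + 7) :=
    mul_le_mul_of_nonneg_right (by linarith) hpos.le
  linarith

/-- From the grid family (`(6k+1)^k` points for every `k ≥ 1`) to every `n ≥ 7`. -/
theorem all_n_lower (p : ENNReal) [Fact (1 ≤ p)] (hp : p ≠ ⊤)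
    (H : ∀ k : ℕ, 1 ≤ k → ∃ (m : ℕ) (x : Fin ((6 * k + 1) ^ k) → PiLp p (fun _ : Fin m => ℝ)),
      Function.Injective x ∧
      ∀ (d : ℕ) (y : Fin ((6 * k + 1) ^ k) → PiLp p (fun _ : Fin d => ℝ)) (s D : ℝ), 0 < s →
        (∀ i j, s * dist (x i) (x j) ≤ dist (y i) (y j) ∧
          dist (y i) (y j) ≤ D * s * dist (x i) (x j)) →
        (1 / 11 : ℝ) * (2 * k / (3 * p.toReal ^ 2)) ^ (p.toReal / 2) ≤ D ^ p.toReal * d)
    (n : ℕ) (hn : 7 ≤ n) :
    ∃ (m : ℕ) (x : Fin n → PiLp p (fun _ : Fin m => ℝ)), Function.Injective x ∧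
      ∀ (d : ℕ) (y : Fin n → PiLp p (fun _ : Fin d => ℝ)) (s D : ℝ), 0 < s →
        (∀ i j, s * dist (x i) (x j) ≤ dist (y i) (y j) ∧
          dist (y i) (y j) ≤ D * s * dist (x i) (x j)) →
        (1 / 11 : ℝ) * (Real.log n / (3 * p.toReal ^ 2 * Real.log (6 * Real.log n + 7))) ^
          (p.toReal / 2) ≤ D ^ p.toReal * d := by
  have hp1 : (1 : ENNReal) ≤ p := Fact.out
  have hq1 : 1 ≤ p.toReal := by
    have := ENNReal.toReal_mono hp hp1
    simpa using this
  obtain ⟨k, hk1, hPk, hk⟩ := exists_grid_k n hn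
  obtain ⟨m, x₀, hinj, hB⟩ := H k hk1
  obtain ⟨m', x, hx, hxB⟩ := pad_lower p hp ((6 * k + 1) ^ k) m x₀ hinj _ hB n hPk
  refine ⟨m', x, hx, fun d y s D hs hy => le_trans ?_ (hxB d y s D hs hy)⟩
  have hn1 : (1 : ℝ) ≤ n := by exact_mod_cast (by omega : 1 ≤ n)
  have hlogn : 0 ≤ Real.log n := Real.log_nonneg hn1
  have hpos : 0 < Real.log (6 * Real.log n + 7) := by
    apply Real.log_pos
    linarith
  have hq2 : 0 < 3 * p.toReal ^ 2 := by positivity
  have hbase : Real.log n / (3 * p.toReal ^ 2 * Real.log (6 * Real.log n + 7)) ≤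
      2 * k / (3 * p.toReal ^ 2) := by
    rw [div_le_div_iff₀ (by positivity) hq2]
    rw [div_le_iff₀ hpos] at hk
    nlinarith
  have hb0 : 0 ≤ Real.log n / (3 * p.toReal ^ 2 * Real.log (6 * Real.log n + 7)) := by
    positivity
  have hpow := Real.rpow_le_rpow hb0 hbase (by linarith : (0 : ℝ) ≤ p.toReal / 2)
  linarith

end Vale.Agent.Lib.P249.H21Pad
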