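import Mathlib

/-!
P249: two elementary counting lemmas (harmonic rank sum, doubling pigeonhole).
-/

namespace Vale.Agent.Lib.P249.H21

open Finset

/-- For a finite set `X` and a real function `h`, the sum over `b ∈ X` of the reciprocal of
the number of `y ∈ X` with `h y ≤ h b` is at most the harmonic number of `|X|`. -/
theorem rank_sum_le {α : Type*} [DecidableEq α] (h : α → ℝ) :
    ∀ (N : ℕ) (X : Finset α), X.card = N →
      ∑ b ∈ X, (1 : ℝ) / ((X.filter (fun y => h y ≤ h b)).card : ℝ) ≤ ((harmonic N : ℚ) : ℝ) := by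
  intro N
  induction N with
  | zero =>
    intro X hX
    have : X = ∅ := Finset.card_eq_zero.mp hX
    subst this
    simp
  | succ N ih =>
    intro X hX
    have hne : X.Nonempty := by
      rw [← Finset.card_pos]; omega
    obtain ⟨b0, hb0, hmax⟩ := Finset.exists_max_image X h hne
    have hcard' : (X.erase b0).card = N := by
      rw [Finset.card_erase_of_mem hb0]; omega
    have ih' := ih (X.erase b0) hcard'
    rw [← Finset.add_sum_erase X _ hb0]
    have h0 : (X.filter (fun y => h y ≤ h b0)) = X := by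
      apply Finset.filter_true_of_mem
      intro y hy; exact hmax y hy
    rw [h0, hX, harmonic_succ]
    have h1 : ∑ b ∈ X.erase b0, (1 : ℝ) / ((X.filter (fun y => h y ≤ h b)).card : ℝ)
        ≤ ∑ b ∈ X.erase b0, (1 : ℝ) / (((X.erase b0).filter (fun y => h y ≤ h b)).card : ℝ) := by
      apply Finset.sum_le_sum
      intro b hb
      have hsub : (X.erase b0).filter (fun y => h y ≤ h b) ⊆ X.filter (fun y => h y ≤ h b) :=
        Finset.filter_subset_filter _ (Finset.erase_subset _ _)
      have hpos : 0 < (((X.erase b0).filter (fun y => h y ≤ h b)).card : ℝ) := by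
        have hmem : b ∈ (X.erase b0).filter (fun y => h y ≤ h b) := by
          rw [Finset.mem_filter]
          exact ⟨hb, le_refl _⟩
        exact_mod_cast Finset.card_pos.mpr ⟨b, hmem⟩
      apply one_div_le_one_div_of_le hpos
      exact_mod_cast Finset.card_le_card hsub
    push_cast
    have h2 : (1 : ℝ) / ((N : ℝ) + 1) = ((N : ℝ) + 1)⁻¹ := one_div _
    linarith

/-- Doubling pigeonhole: a sequence of naturals in `[1, n]` has an index `μ ≤ log₂ n` at which
it at most doubles. -/
theorem pigeon (g : ℕ → ℕ) (n : ℕ) (h0 : 1 ≤ g 0) (hn : ∀ μ, g μ ≤ n) :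
    ∃ μ, μ ≤ Nat.log 2 n ∧ g (μ + 1) ≤ 2 * g μ := by
  by_contra hcon
  push Not at hcon
  have key : ∀ μ, μ ≤ Nat.log 2 n + 1 → 2 ^ μ ≤ g μ := by
    intro μ
    induction μ with
    | zero => intro _; simpa using h0
    | succ μ ih =>
      intro hμ
      have h1 := ih (by omega)
      have h2 := hcon μ (by omega)
      calc 2 ^ (μ + 1) = 2 * 2 ^ μ := by ring
        _ ≤ 2 * g μ := by omega
        _ ≤ g (μ + 1) := by omega
  have h3 := key (Nat.log 2 n + 1) le_rfl
  have h4 := Nat.lt_pow_succ_log_self (by norm_num : 1 < 2) n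
  have h5 := hn (Nat.log 2 n + 1)
  omega

end Vale.Agent.Lib.P249.H21
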