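import Vale.Agent.Lib.P249.helper21.Rank

/-!
P249: the pair-sensitivity bound.  For `n` points with a pseudo-metric `dd` whose `q`-th power
is a sum of coordinate weights `w k` obeying a quasi-triangle inequality, there are
sensitivities `s k` with `w k a b ≤ s k * dd a b ^ q` and `∑ s k = O(n (log n)^(q+1))`.
-/

namespace Vale.Agent.Lib.P249.H21

open Finset

section

variable {n m : ℕ}

/-- The closed ball of radius `ρ` around `a`, as a finset. -/
noncomputable def ball (dd : Fin n → Fin n → ℝ) (a : Fin n) (ρ : ℝ) : Finset (Fin n) :=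
  univ.filter (fun y => dd a y ≤ ρ)

/-- The potential of an ordered pair. -/
noncomputable def phi (dd : Fin n → Fin n → ℝ) (a b : Fin n) : ℝ :=
  1 / ((ball dd a (dd a b)).card : ℝ)

/-- The weighted ratio sum of a coordinate. -/
noncomputable def T (q : ℝ) (dd : Fin n → Fin n → ℝ) (w : Fin m → Fin n → Fin n → ℝ)
    (k : Fin m) : ℝ :=
  ∑ a, ∑ b, phi dd a b * (w k a b / dd a b ^ q)

/-- The hypotheses of the sensitivity bound. -/
structure Hyp (q : ℝ) (dd : Fin n → Fin n → ℝ) (w : Fin m → Fin n → Fin n → ℝ) : Prop where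
  hq : 1 ≤ q
  dd_nonneg : ∀ a b, 0 ≤ dd a b
  dd_self : ∀ a, dd a a = 0
  dd_symm : ∀ a b, dd a b = dd b a
  dd_tri : ∀ a b c, dd a c ≤ dd a b + dd b c
  w_nonneg : ∀ k a b, 0 ≤ w k a b
  w_symm : ∀ k a b, w k a b = w k b a
  w_quasi : ∀ k a b c, w k a c ≤ 2 ^ (q - 1) * (w k a b + w k b c)
  hv : ∀ a b, dd a b ^ q = ∑ k, w k a b

variable {q : ℝ} {dd : Fin n → Fin n → ℝ} {w : Fin m → Fin n → Fin n → ℝ}

theorem mem_ball {a y : Fin n} {ρ : ℝ} : y ∈ ball dd a ρ ↔ dd a y ≤ ρ := by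
  unfold ball
  simp

theorem ball_card_pos (a b : Fin n) :
    0 < ((ball dd a (dd a b)).card : ℝ) := by
  have : b ∈ ball dd a (dd a b) := mem_ball.mpr le_rfl
  exact_mod_cast Finset.card_pos.mpr ⟨b, this⟩

theorem phi_nonneg (a b : Fin n) : 0 ≤ phi dd a b := by
  unfold phi
  positivity

theorem term_nonneg (H : Hyp q dd w) (k : Fin m) (a b : Fin n) :
    0 ≤ phi dd a b * (w k a b / dd a b ^ q) :=
  mul_nonneg (phi_nonneg a b)
    (div_nonneg (H.w_nonneg k a b) (Real.rpow_nonneg (H.dd_nonneg a b) q))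

theorem T_nonneg (H : Hyp q dd w) (k : Fin m) : 0 ≤ T q dd w k := by
  unfold T
  exact Finset.sum_nonneg (fun a _ => Finset.sum_nonneg (fun b _ => term_nonneg H k a b))

/-- (A2) The total of the weighted ratio sums is at most `n H_n`. -/
theorem sum_T_le (H : Hyp q dd w) :
    ∑ k, T q dd w k ≤ (n : ℝ) * ((harmonic n : ℚ) : ℝ) := by
  unfold T
  rw [Finset.sum_comm]
  have h1 : ∀ a : Fin n, ∑ k, ∑ b, phi dd a b * (w k a b / dd a b ^ q)
      ≤ ((harmonic n : ℚ) : ℝ) := by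
    intro a
    rw [Finset.sum_comm]
    have h2 : ∀ b : Fin n, ∑ k, phi dd a b * (w k a b / dd a b ^ q) ≤ phi dd a b := by
      intro b
      rw [← Finset.mul_sum, ← Finset.sum_div, ← H.hv a b]
      calc phi dd a b * (dd a b ^ q / dd a b ^ q) ≤ phi dd a b * 1 :=
            mul_le_mul_of_nonneg_left (div_self_le_one _) (phi_nonneg a b)
        _ = phi dd a b := mul_one _
    calc ∑ b, ∑ k, phi dd a b * (w k a b / dd a b ^ q) ≤ ∑ b, phi dd a b :=
          Finset.sum_le_sum (fun b _ => h2 b)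
      _ ≤ ((harmonic n : ℚ) : ℝ) := by
          have := rank_sum_le (fun y => dd a y) n (univ : Finset (Fin n)) (by simp)
          unfold phi ball
          exact this
  calc ∑ a, ∑ k, ∑ b, phi dd a b * (w k a b / dd a b ^ q)
      ≤ ∑ _a : Fin n, ((harmonic n : ℚ) : ℝ) := Finset.sum_le_sum (fun a _ => h1 a)
    _ = (n : ℝ) * ((harmonic n : ℚ) : ℝ) := by simp

/-- A ratio with a far denominator is smaller. -/
theorem ratio_ge (H : Hyp q dd w) (k : Fin m) (a b : Fin n) {c ρ : ℝ} (hc : 0 < c) (hρ : 0 < ρ)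
    (hab : dd a b ≤ c * ρ) :
    w k a b / (c ^ q * ρ ^ q) ≤ w k a b / dd a b ^ q := by
  have hq0 : 0 < q := by linarith [H.hq]
  by_cases h0 : dd a b = 0
  · have hsum : ∑ k, w k a b = 0 := by
      rw [← H.hv a b, h0, Real.zero_rpow hq0.ne']
    have hk : w k a b = 0 :=
      (Finset.sum_eq_zero_iff_of_nonneg (fun k _ => H.w_nonneg k a b)).mp hsum k (Finset.mem_univ k)
    rw [hk]
    simp
  · have hpos : 0 < dd a b := lt_of_le_of_ne (H.dd_nonneg a b) (Ne.symm h0)
    have h1 : dd a b ^ q ≤ c ^ q * ρ ^ q := by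
      rw [← Real.mul_rpow hc.le hρ.le]
      exact Real.rpow_le_rpow hpos.le hab hq0.le
    exact div_le_div_of_nonneg_left (H.w_nonneg k a b) (Real.rpow_pos_of_pos hpos q) h1

/-- The final arithmetic of (A1). -/
theorem final_arith {R T A E E' b1 b3 : ℝ} (hR0 : 0 ≤ R) (hT0 : 0 ≤ T) (hA2 : 2 ≤ A)
    (hEpos : 0 < E) (hEE' : E ≤ E') (hE'1 : 1 ≤ E') (hb1ge : 2 ≤ b1) (hb3pos : 0 < b3)
    (hb31 : b3 ≤ 2 * b1) (hcase : b1 ≤ 3 ∨ 4 ≤ b1)
    (hT : R / b1 + (b1 - 2) * (1 / b3 * (2 / A * (R / E))) ≤ T) :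
    R ≤ 2 * A * E' * T := by
  have hApos : 0 < A := by linarith
  have hb1pos : 0 < b1 := by linarith
  have hX0 : 0 ≤ 2 / A * (R / E) := by positivity
  rcases hcase with hb1le | hb1ge4
  · have h1 : R / 3 ≤ R / b1 := div_le_div_of_nonneg_left hR0 hb1pos hb1le
    have h2 : 0 ≤ (b1 - 2) * (1 / b3 * (2 / A * (R / E))) := by
      apply mul_nonneg (by linarith)
      positivity
    have h3 : R ≤ 3 * T := by linarith
    have h5 : (3 : ℝ) ≤ 2 * A * E' := by nlinarith
    have h4 : 3 * T ≤ 2 * A * E' * T := mul_le_mul_of_nonneg_right h5 hT0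
    linarith
  · have h1 : 1 / 4 ≤ (b1 - 2) * (1 / b3) := by
      rw [mul_one_div, le_div_iff₀ hb3pos]
      linarith
    have h2 : 1 / 4 * (2 / A * (R / E)) ≤ (b1 - 2) * (1 / b3 * (2 / A * (R / E))) := by
      have h := mul_le_mul_of_nonneg_right h1 hX0
      rw [mul_assoc] at h
      exact h
    have h3 : 0 ≤ R / b1 := by positivity
    have h4 : 1 / 4 * (2 / A * (R / E)) ≤ T := by linarith
    have h5 : R = 2 * A * E * (1 / 4 * (2 / A * (R / E))) := by
      field_simp
      ring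
    have h6 : 2 * A * E * (1 / 4 * (2 / A * (R / E))) ≤ 2 * A * E * T :=
      mul_le_mul_of_nonneg_left h4 (by positivity)
    have h7 : 2 * A * E * T ≤ 2 * A * E' * T := by
      apply mul_le_mul_of_nonneg_right _ hT0
      apply mul_le_mul_of_nonneg_left hEE' (by positivity)
    linarith

/-- Partial sums of the weighted ratio sum. -/
theorem split_T (H : Hyp q dd w) (k : Fin m) {i j : Fin n} (hij : i ≠ j) (L : Finset (Fin n))
    (hjL : j ∉ L) :
    phi dd i j * (w k i j / dd i j ^ q)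
      + ∑ l ∈ L, (phi dd i l * (w k i l / dd i l ^ q) + phi dd j l * (w k j l / dd j l ^ q))
      ≤ T q dd w k := by
  have hF0 : ∀ a b, 0 ≤ phi dd a b * (w k a b / dd a b ^ q) := fun a b => term_nonneg H k a b
  unfold T
  have h1 : ∑ b, phi dd i b * (w k i b / dd i b ^ q) + ∑ b, phi dd j b * (w k j b / dd j b ^ q)
      ≤ ∑ a, ∑ b, phi dd a b * (w k a b / dd a b ^ q) := by
    have := Finset.sum_le_sum_of_subset_of_nonneg
      (Finset.subset_univ ({i, j} : Finset (Fin n)))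
      (f := fun a => ∑ b, phi dd a b * (w k a b / dd a b ^ q))
      (fun a _ _ => Finset.sum_nonneg (fun b _ => hF0 a b))
    rwa [Finset.sum_pair hij] at this
  have h2 : phi dd i j * (w k i j / dd i j ^ q) + ∑ l ∈ L, phi dd i l * (w k i l / dd i l ^ q)
      ≤ ∑ b, phi dd i b * (w k i b / dd i b ^ q) := by
    have := Finset.sum_le_sum_of_subset_of_nonneg (Finset.subset_univ (insert j L))
      (f := fun b => phi dd i b * (w k i b / dd i b ^ q)) (fun b _ _ => hF0 i b)
    rwa [Finset.sum_insert hjL] at this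
  have h3 : ∑ l ∈ L, phi dd j l * (w k j l / dd j l ^ q)
      ≤ ∑ b, phi dd j b * (w k j b / dd j b ^ q) :=
    Finset.sum_le_sum_of_subset_of_nonneg (Finset.subset_univ L) (fun b _ _ => hF0 j b)
  rw [Finset.sum_add_distrib]
  linarith

/-- The pair itself. -/
theorem pair_term (H : Hyp q dd w) (k : Fin m) (i j : Fin n) {C : ℝ} (hC1 : 1 ≤ C) :
    (w k i j / dd i j ^ q) / ((ball dd i (C * dd i j)).card : ℝ)
      ≤ phi dd i j * (w k i j / dd i j ^ q) := by
  have hR0 : 0 ≤ w k i j / dd i j ^ q :=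
    div_nonneg (H.w_nonneg k i j) (Real.rpow_nonneg (H.dd_nonneg i j) q)
  have hsub : ball dd i (dd i j) ⊆ ball dd i (C * dd i j) := by
    intro y hy
    rw [mem_ball]
    have := mem_ball.mp hy
    calc dd i y ≤ dd i j := this
      _ = 1 * dd i j := by rw [one_mul]
      _ ≤ C * dd i j := mul_le_mul_of_nonneg_right hC1 (H.dd_nonneg i j)
  have hphi : 1 / ((ball dd i (C * dd i j)).card : ℝ) ≤ phi dd i j := by
    unfold phi
    apply one_div_le_one_div_of_le (ball_card_pos i j)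
    exact_mod_cast Finset.card_le_card hsub
  calc (w k i j / dd i j ^ q) / ((ball dd i (C * dd i j)).card : ℝ)
      = 1 / ((ball dd i (C * dd i j)).card : ℝ) * (w k i j / dd i j ^ q) := by ring
    _ ≤ phi dd i j * (w k i j / dd i j ^ q) := mul_le_mul_of_nonneg_right hphi hR0

/-- A polluted pair of pairs. -/
theorem pollute (H : Hyp q dd w) (k : Fin m) (i j l : Fin n) {C : ℝ} (hC1 : 1 ≤ C)
    (hρpos : 0 < dd i j) (hil : dd i l ≤ C * dd i j) :
    1 / ((ball dd i ((C + 2) * dd i j)).card : ℝ)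
        * (2 / (2 : ℝ) ^ q * ((w k i j / dd i j ^ q) / (C + 1) ^ q))
      ≤ phi dd i l * (w k i l / dd i l ^ q) + phi dd j l * (w k j l / dd j l ^ q) := by
  have hq := H.hq
  have hq0 : 0 < q := by linarith
  have hAhalf : (2 : ℝ) ^ (q - 1) = (2 : ℝ) ^ q / 2 := by
    rw [Real.rpow_sub_one (by norm_num : (2 : ℝ) ≠ 0)]
  have hApos : 0 < (2 : ℝ) ^ q := Real.rpow_pos_of_pos (by norm_num) q
  have hEpos : 0 < (C + 1) ^ q := Real.rpow_pos_of_pos (by linarith) q
  have hρq : 0 < dd i j ^ q := Real.rpow_pos_of_pos hρpos q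
  have hquasi : 2 / (2 : ℝ) ^ q * w k i j ≤ w k i l + w k j l := by
    have h := H.w_quasi k i l j
    rw [hAhalf, H.w_symm k l j] at h
    rw [div_mul_eq_mul_div, div_le_iff₀ hApos]
    linarith
  have hji : dd j i = dd i j := H.dd_symm j i
  have hjl : dd j l ≤ (C + 1) * dd i j := by
    calc dd j l ≤ dd j i + dd i l := H.dd_tri j i l
      _ ≤ dd i j + C * dd i j := by linarith
      _ = (C + 1) * dd i j := by ring
  have hil' : dd i l ≤ (C + 1) * dd i j := by nlinarith
  have hr1 : w k i l / ((C + 1) ^ q * dd i j ^ q) ≤ w k i l / dd i l ^ q :=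
    ratio_ge H k i l (by linarith) hρpos hil'
  have hr2 : w k j l / ((C + 1) ^ q * dd i j ^ q) ≤ w k j l / dd j l ^ q :=
    ratio_ge H k j l (by linarith) hρpos hjl
  generalize (2 : ℝ) ^ q = A at *
  generalize (C + 1) ^ q = E at *
  generalize dd i j ^ q = P at *
  have hsum : 2 / A * ((w k i j / P) / E) ≤ w k i l / dd i l ^ q + w k j l / dd j l ^ q := by
    calc 2 / A * ((w k i j / P) / E) = (2 / A * w k i j) / (E * P) := by
          field_simp
      _ ≤ (w k i l + w k j l) / (E * P) :=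
          div_le_div_of_nonneg_right hquasi (by positivity)
      _ = w k i l / (E * P) + w k j l / (E * P) := by ring
      _ ≤ _ := add_le_add hr1 hr2
  have hphi1 : 1 / ((ball dd i ((C + 2) * dd i j)).card : ℝ) ≤ phi dd i l := by
    unfold phi
    apply one_div_le_one_div_of_le (ball_card_pos i l)
    have hsub : ball dd i (dd i l) ⊆ ball dd i ((C + 2) * dd i j) := by
      intro y hy
      rw [mem_ball]
      have := mem_ball.mp hy
      calc dd i y ≤ dd i l := this
        _ ≤ C * dd i j := hil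
        _ ≤ (C + 2) * dd i j := by nlinarith
    exact_mod_cast Finset.card_le_card hsub
  have hphi2 : 1 / ((ball dd i ((C + 2) * dd i j)).card : ℝ) ≤ phi dd j l := by
    unfold phi
    apply one_div_le_one_div_of_le (ball_card_pos j l)
    have hsub : ball dd j (dd j l) ⊆ ball dd i ((C + 2) * dd i j) := by
      intro y hy
      rw [mem_ball]
      have := mem_ball.mp hy
      calc dd i y ≤ dd i j + dd j y := H.dd_tri i j y
        _ ≤ dd i j + (C + 1) * dd i j := by linarith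
        _ = (C + 2) * dd i j := by ring
    exact_mod_cast Finset.card_le_card hsub
  have hr1' : 0 ≤ w k i l / dd i l ^ q :=
    div_nonneg (H.w_nonneg k i l) (Real.rpow_nonneg (H.dd_nonneg i l) q)
  have hr2' : 0 ≤ w k j l / dd j l ^ q :=
    div_nonneg (H.w_nonneg k j l) (Real.rpow_nonneg (H.dd_nonneg j l) q)
  have hb3 : 0 ≤ 1 / ((ball dd i ((C + 2) * dd i j)).card : ℝ) := by positivity
  calc 1 / ((ball dd i ((C + 2) * dd i j)).card : ℝ) * (2 / A * ((w k i j / P) / E))
      ≤ 1 / ((ball dd i ((C + 2) * dd i j)).card : ℝ)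
          * (w k i l / dd i l ^ q + w k j l / dd j l ^ q) :=
        mul_le_mul_of_nonneg_left hsum hb3
    _ = 1 / ((ball dd i ((C + 2) * dd i j)).card : ℝ) * (w k i l / dd i l ^ q)
        + 1 / ((ball dd i ((C + 2) * dd i j)).card : ℝ) * (w k j l / dd j l ^ q) := by ring
    _ ≤ _ := add_le_add (mul_le_mul_of_nonneg_right hphi1 hr1')
        (mul_le_mul_of_nonneg_right hphi2 hr2')

/-- The lower bound for the weighted ratio sum at a doubling radius. -/
theorem T_lower (H : Hyp q dd w) (k : Fin m) (i j : Fin n) {C : ℝ} (hC1 : 1 ≤ C)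
    (hρpos : 0 < dd i j) :
    (w k i j / dd i j ^ q) / ((ball dd i (C * dd i j)).card : ℝ)
      + (((ball dd i (C * dd i j)).card : ℝ) - 2)
        * (1 / ((ball dd i ((C + 2) * dd i j)).card : ℝ)
          * (2 / (2 : ℝ) ^ q * ((w k i j / dd i j ^ q) / (C + 1) ^ q)))
      ≤ T q dd w k ∧ 2 ≤ (ball dd i (C * dd i j)).card := by
  have hij : i ≠ j := by
    intro h
    rw [h, H.dd_self j] at hρpos
    exact lt_irrefl _ hρpos
  have hiB1 : i ∈ ball dd i (C * dd i j) := by
    rw [mem_ball, H.dd_self]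
    nlinarith
  have hjB1 : j ∈ ball dd i (C * dd i j) := by
    rw [mem_ball]
    nlinarith
  have h2B1 : 2 ≤ (ball dd i (C * dd i j)).card := by
    have hsub : ({i, j} : Finset (Fin n)) ⊆ ball dd i (C * dd i j) := by
      intro y hy
      rcases Finset.mem_insert.mp hy with h | h
      · rw [h]; exact hiB1
      · rw [Finset.mem_singleton.mp h]; exact hjB1
    have := Finset.card_le_card hsub
    rwa [Finset.card_pair hij] at this
  refine ⟨?_, h2B1⟩
  have hjL : j ∉ ((ball dd i (C * dd i j)).erase i).erase j := Finset.notMem_erase j _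
  have hLcard : ((((ball dd i (C * dd i j)).erase i).erase j).card : ℝ)
      = ((ball dd i (C * dd i j)).card : ℝ) - 2 := by
    have hj' : j ∈ (ball dd i (C * dd i j)).erase i :=
      Finset.mem_erase.mpr ⟨Ne.symm hij, hjB1⟩
    have h1 := Finset.card_erase_of_mem hj'
    have h2 := Finset.card_erase_of_mem hiB1
    have : (((ball dd i (C * dd i j)).erase i).erase j).card
        = (ball dd i (C * dd i j)).card - 2 := by omega
    rw [this]
    push_cast [Nat.cast_sub h2B1]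
    ring
  have hsplit := split_T H k hij _ hjL
  have hpair := pair_term H k i j hC1
  have hl : ∀ l ∈ ((ball dd i (C * dd i j)).erase i).erase j,
      1 / ((ball dd i ((C + 2) * dd i j)).card : ℝ)
        * (2 / (2 : ℝ) ^ q * ((w k i j / dd i j ^ q) / (C + 1) ^ q))
      ≤ phi dd i l * (w k i l / dd i l ^ q) + phi dd j l * (w k j l / dd j l ^ q) := by
    intro l hlL
    have hlB1 : l ∈ ball dd i (C * dd i j) :=
      Finset.mem_of_mem_erase (Finset.mem_of_mem_erase hlL)
    exact pollute H k i j l hC1 hρpos (mem_ball.mp hlB1)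
  have hsumL := Finset.sum_le_sum hl
  rw [Finset.sum_const, nsmul_eq_mul, hLcard] at hsumL
  linarith

/-- (A1) Every ratio is bounded by the weighted ratio sum of its coordinate. -/
theorem ratio_le_T (H : Hyp q dd w) (k : Fin m) (i j : Fin n) :
    w k i j / dd i j ^ q ≤ 2 ^ (1 + q) * (2 * (Nat.log 2 n : ℝ) + 2) ^ q * T q dd w k := by
  have hq := H.hq
  have hq0 : 0 < q := by linarith
  have hT0 := T_nonneg H k
  have hA2 : (2 : ℝ) ≤ (2 : ℝ) ^ q := by
    have h := Real.rpow_le_rpow_of_exponent_le (by norm_num : (1 : ℝ) ≤ 2) hq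
    rwa [Real.rpow_one] at h
  have h2A : (2 : ℝ) ^ (1 + q) = 2 * (2 : ℝ) ^ q := by
    rw [Real.rpow_add (by norm_num : (0 : ℝ) < 2), Real.rpow_one]
  have hM0 : (0 : ℝ) ≤ (Nat.log 2 n : ℝ) := Nat.cast_nonneg _
  have hE'1 : 1 ≤ (2 * (Nat.log 2 n : ℝ) + 2) ^ q := Real.one_le_rpow (by linarith) hq0.le
  rw [h2A]
  by_cases hρ0 : dd i j = 0
  · rw [hρ0, Real.zero_rpow hq0.ne', div_zero]
    positivity
  have hρpos : 0 < dd i j := lt_of_le_of_ne (H.dd_nonneg i j) (Ne.symm hρ0)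
  have hR0 : 0 ≤ w k i j / dd i j ^ q :=
    div_nonneg (H.w_nonneg k i j) (Real.rpow_nonneg hρpos.le q)
  -- pigeonhole
  obtain ⟨μ, hμM, hμ⟩ := pigeon (fun μ => (ball dd i ((2 * (μ : ℝ) + 1) * dd i j)).card) n
    (by
      have : i ∈ ball dd i ((2 * ((0 : ℕ) : ℝ) + 1) * dd i j) := by
        rw [mem_ball, H.dd_self]; positivity
      exact Finset.card_pos.mpr ⟨i, this⟩)
    (by
      intro μ
      calc (ball dd i ((2 * (μ : ℝ) + 1) * dd i j)).card ≤ (univ : Finset (Fin n)).card :=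
            Finset.card_le_card (Finset.subset_univ _)
        _ = n := by simp)
  have hC1 : 1 ≤ 2 * (μ : ℝ) + 1 := by
    have : (0 : ℝ) ≤ (μ : ℝ) := Nat.cast_nonneg _
    linarith
  have hcast : (2 * ((μ + 1 : ℕ) : ℝ) + 1) = (2 * (μ : ℝ) + 1) + 2 := by push_cast; ring
  have hμ' : (ball dd i (((2 * (μ : ℝ) + 1) + 2) * dd i j)).card
      ≤ 2 * (ball dd i ((2 * (μ : ℝ) + 1) * dd i j)).card := by
    have := hμ
    simp only [hcast] at this
    exact this
  have hCM : (2 * (μ : ℝ) + 1) + 1 ≤ 2 * (Nat.log 2 n : ℝ) + 2 := by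
    have : (μ : ℝ) ≤ (Nat.log 2 n : ℝ) := by exact_mod_cast hμM
    linarith
  obtain ⟨hT, h2B1⟩ := T_lower H k i j hC1 hρpos
  have hEpos : 0 < ((2 * (μ : ℝ) + 1) + 1) ^ q := Real.rpow_pos_of_pos (by linarith) q
  have hEE' : ((2 * (μ : ℝ) + 1) + 1) ^ q ≤ (2 * (Nat.log 2 n : ℝ) + 2) ^ q :=
    Real.rpow_le_rpow (by linarith) hCM hq0.le
  have hb3pos : 0 < ((ball dd i (((2 * (μ : ℝ) + 1) + 2) * dd i j)).card : ℝ) := by
    have : i ∈ ball dd i (((2 * (μ : ℝ) + 1) + 2) * dd i j) := by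
      rw [mem_ball, H.dd_self]; positivity
    exact_mod_cast Finset.card_pos.mpr ⟨i, this⟩
  have hb31 : ((ball dd i (((2 * (μ : ℝ) + 1) + 2) * dd i j)).card : ℝ)
      ≤ 2 * ((ball dd i ((2 * (μ : ℝ) + 1) * dd i j)).card : ℝ) := by exact_mod_cast hμ'
  have hb1ge : (2 : ℝ) ≤ ((ball dd i ((2 * (μ : ℝ) + 1) * dd i j)).card : ℝ) := by
    exact_mod_cast h2B1
  have hcase : ((ball dd i ((2 * (μ : ℝ) + 1) * dd i j)).card : ℝ) ≤ 3
      ∨ 4 ≤ ((ball dd i ((2 * (μ : ℝ) + 1) * dd i j)).card : ℝ) := by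
    by_cases hc : (ball dd i ((2 * (μ : ℝ) + 1) * dd i j)).card ≤ 3
    · left; exact_mod_cast hc
    · right
      have : 4 ≤ (ball dd i ((2 * (μ : ℝ) + 1) * dd i j)).card := by omega
      exact_mod_cast this
  exact final_arith hR0 hT0 hA2 hEpos hEE' hE'1 hb1ge hb3pos hb31 hcase hT

/-- The sensitivity bound: sensitivities exist with total `O(n (log n)^(q+1))`. -/
theorem exists_sens (H : Hyp q dd w) :
    ∃ s : Fin m → ℝ, (∀ k, 0 ≤ s k) ∧ (∀ k a b, w k a b ≤ s k * dd a b ^ q) ∧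
      ∑ k, s k ≤ 2 ^ (1 + q) * (2 * (Nat.log 2 n : ℝ) + 2) ^ q
        * ((n : ℝ) * ((harmonic n : ℚ) : ℝ)) := by
  have hq0 : 0 < q := by linarith [H.hq]
  have hK : 0 ≤ (2 : ℝ) ^ (1 + q) * (2 * (Nat.log 2 n : ℝ) + 2) ^ q := by positivity
  refine ⟨fun k => 2 ^ (1 + q) * (2 * (Nat.log 2 n : ℝ) + 2) ^ q * T q dd w k, ?_, ?_, ?_⟩
  · intro k
    exact mul_nonneg hK (T_nonneg H k)
  · intro k a b
    have h := ratio_le_T H k a b
    by_cases h0 : dd a b ^ q = 0
    · have hsum : ∑ k, w k a b = 0 := by rw [← H.hv a b, h0]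
      have hk : w k a b = 0 :=
        (Finset.sum_eq_zero_iff_of_nonneg (fun k _ => H.w_nonneg k a b)).mp hsum k
          (Finset.mem_univ k)
      rw [hk, h0]
      simp
    · have hpos : 0 < dd a b ^ q :=
        lt_of_le_of_ne (Real.rpow_nonneg (H.dd_nonneg a b) q) (Ne.symm h0)
      rw [div_le_iff₀ hpos] at h
      exact h
  · rw [← Finset.mul_sum]
    exact mul_le_mul_of_nonneg_left (sum_T_le H) hK

end

end Vale.Agent.Lib.P249.H21
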