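import Vale.Agent.Lib.P249.helper62.GridCore
import Vale.Agent.Lib.P249.helper46.GridFinalCore
import Vale.Agent.Lib.P249.helper21.PadLower
import Vale.Agent.Lib.P249.helper21.LpNLogN

/-!
# P249: both bounds for every `n ≥ 7` (helper21)

`grid_final` is the statement of the hand-in `GridLowerBound` (helper62's grid lower bound; same
proof term).  `lower_all_n` is its form for every `n ≥ 7` (padding by further points and the
choice of `k` with `(6k+1)^k ≤ n`).  The upper bound is `H21Lp.nlogn_Lp`.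
-/

namespace Vale.Agent.Lib.P249.H21Two

theorem grid_final (p : ENNReal) [Fact (1 ≤ p)] (hp : p ≠ ⊤) (hp2 : 2 ≤ p) (k : ℕ) (hk : 1 ≤ k) :
    ∃ (m : ℕ) (x : Fin ((6 * k + 1) ^ k) → PiLp p (fun _ : Fin m => ℝ)), Function.Injective x ∧
      ∀ (d : ℕ) (y : Fin ((6 * k + 1) ^ k) → PiLp p (fun _ : Fin d => ℝ)) (s D : ℝ), 0 < s →
        (∀ i j, s * dist (x i) (x j) ≤ dist (y i) (y j) ∧
          dist (y i) (y j) ≤ D * s * dist (x i) (x j)) →
        (1 / 11 : ℝ) * (2 * k / (3 * p.toReal ^ 2)) ^ (p.toReal / 2) ≤ D ^ p.toReal * d :=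
  Vale.Agent.Lib.P249.H46.grid_final_of_core
    (fun k hk q hq d s D hs y hlow hup =>
      Vale.Agent.Lib.P249.H62.grid_core k hk q hq d s D hs y hlow hup)
    Vale.Agent.Lib.P249.H62.gX_injective p hp hp2 k hk

/-- The grid lower bound for every number `n ≥ 7` of points. -/
theorem lower_all_n (p : ENNReal) [Fact (1 ≤ p)] (hp : p ≠ ⊤) (hp2 : 2 ≤ p) (n : ℕ)
    (hn : 7 ≤ n) :
    ∃ (m : ℕ) (x : Fin n → PiLp p (fun _ : Fin m => ℝ)), Function.Injective x ∧
      ∀ (d : ℕ) (y : Fin n → PiLp p (fun _ : Fin d => ℝ)) (s D : ℝ), 0 < s →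
        (∀ i j, s * dist (x i) (x j) ≤ dist (y i) (y j) ∧
          dist (y i) (y j) ≤ D * s * dist (x i) (x j)) →
        (1 / 11 : ℝ) * (Real.log n / (3 * p.toReal ^ 2 * Real.log (6 * Real.log n + 7))) ^
          (p.toReal / 2) ≤ D ^ p.toReal * d :=
  Vale.Agent.Lib.P249.H21Pad.all_n_lower p hp (fun k hk => grid_final p hp hp2 k hk) n hn

end Vale.Agent.Lib.P249.H21Two
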